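import Vale.Agent.P354SA.Far
import Vale.Agent.P354SC.Ch
import Vale.Agent.P354YR.Kap

/-!
CHF: facts about the far chart.
-/

set_option linter.all false

open scoped ContDiff
open Set Filter Topology Matrix

noncomputable section

namespace Vale.Agent.P354LA

open Vale.Agent.P354n (R4)
open Vale.Agent.P354I (rm rp)
open Vale.Agent.P354E (sg sg_sq)
open Vale.Agent.P354XE (rd ur kap ka mf Par pb)
open Vale.Agent.P354XA (psi psi_cd ur_eq rd_cd linL rd_lin lin_fst xs_pt)
open Vale.Agent.P354YR (rp_pos rm_lt rm_nn ka_pos M_pos)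
open Vale.Agent.P354SA
open Vale.Agent.P354SC
open Real (cos sin)

variable {M a c : ℝ} {σ : Bool} {z : R4}

/-- The inverse of the far chart. -/
def li (M a : ℝ) (σ : Bool) (c : ℝ) (p : R4) : R4 :=
  (c - p.1 + psi M a (rd p), rd p,
    (cos (ps M a (rd p)) * p.2.1 + sin (ps M a (rd p)) * p.2.2.1) / (rd p + sg σ * p.2.2.2),
    (cos (ps M a (rd p)) * p.2.2.1 - sin (ps M a (rd p)) * p.2.1) / (rd p + sg σ * p.2.2.2))

theorem li_den (σ : Bool) (z : R4) :
    z.2.1 + sg σ * (Th M a σ c z).2.2.2 = 2 * z.2.1 / qq z.2.2 := by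
  have := (qq_pos z.2.2).ne'
  simp only [Th_eq, rt, P354SC.om, Matrix.cons_val]
  field_simp
  unfold qq
  linear_combination z.2.1 * (1 - z.2.2.1 ^ 2 - z.2.2.2 ^ 2) * sg_sq σ

theorem li_Th (h : 0 < z.2.1) : li M a σ c (Th M a σ c z) = z := by
  have := (qq_pos z.2.2).ne'
  have k := Real.cos_sq_add_sin_sq (ps M a z.2.1)
  have h' := h.ne'
  rw [li, rd_Th h.le, li_den]
  refine Prod.ext (by simp only [Th_eq]; ring) (Prod.ext rfl (Prod.ext ?_ ?_)) <;>
    simp only [Th_eq, rt, P354SC.om, Matrix.cons_val] <;> field_simp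
  · linear_combination z.2.2.1 * k
  · linear_combination z.2.2.2 * k

theorem li_df (h : |a| < M) (hr : rp M a < z.2.1) :
    DifferentiableAt ℝ (li M a σ c) (Th M a σ c z) := by
  have h0 : 0 < z.2.1 := (rp_pos h).trans hr
  have e : rd (Th M a σ c z) = z.2.1 := rd_Th h0.le
  have d := li_den (M := M) (a := a) (c := c) σ z
  have d0 : rd (Th M a σ c z) + sg σ * (Th M a σ c z).2.2.2 ≠ 0 := by
    rw [e, d]; have := qq_pos z.2.2; positivity
  generalize Th M a σ c z = p at *
  have r : DifferentiableAt ℝ rd p := (rd_cd (n := 1) (e ▸ h0.ne')).differentiableAt one_ne_zero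
  have s : DifferentiableAt ℝ (fun p => ps M a (rd p)) p :=
    ((ps_cd h (e ▸ hr)).differentiableAt (by simp)).comp p r
  have t : DifferentiableAt ℝ (fun p => psi M a (rd p)) p :=
    ((psi_cd (n := 1) h (e ▸ hr)).differentiableAt one_ne_zero).comp p r
  unfold li
  fun_prop (disch := assumption)

theorem th_inj (h : |a| < M) (hr : rp M a < z.2.1) :
    Function.Injective (fderiv ℝ (Th M a σ c) z) := by
  have e : li M a σ c ∘ Th M a σ c =ᶠ[𝓝 z] id :=
    (continuous_snd.fst.continuousAt.eventually (lt_mem_nhds ((rp_pos h).trans hr))).mono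
      fun _ => li_Th
  have := fderiv_comp z (li_df (σ := σ) (c := c) h hr) ((Th_cd h hr).differentiableAt (by simp))
  rw [e.fderiv_eq, fderiv_id] at this
  exact Function.LeftInverse.injective fun v => (DFunLike.congr_fun this v).symm

theorem le_fq {θ B r : ℝ} (h : |a| < M) (hB : rp M a ≤ B) (θ1 : θ < 1) (hθ : rm M a / rp M a ≤ θ)
    (h1 : 2 * B ≤ r) (h2 : B + Real.exp (Real.log 2 / (1 - θ)) ≤ r) : r ≤ Fq M a r := by
  have a0 := rm_nn h
  have a1 := rm_lt h
  have l2 : 0 < Real.log 2 := Real.log_pos one_lt_two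
  have k1 : Real.log 2 / (1 - θ) ≤ Real.log (r - rm M a) :=
    (Real.le_log_iff_exp_le (by linarith)).2 (by linarith)
  have k2 : Real.log (r - rm M a) - Real.log 2 ≤ Real.log (r - rp M a) := by
    rw [← Real.log_div (by linarith) two_ne_zero]
    exact Real.log_le_log (by linarith) (by linarith)
  have k3 : 0 ≤ Real.log (r - rm M a) := le_trans (by have := sub_pos.2 θ1; positivity) k1
  rw [div_le_iff₀ (sub_pos.2 θ1)] at k1
  exact le_add_of_nonneg_right (div_nonneg (by nlinarith) (ka_pos h).le)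

theorem kap_fst (h : |a| < M) {p : R4} (hr : rp M a < rd p) : ∃ k > 0,
    (kap M a p).1 = k * (Real.exp (2 * ka M a * (p.1 - tS M a (rd p))) - 1) := by
  have a1 := sub_pos.2 hr
  have a2 := sub_pos.2 ((rm_lt h).trans hr)
  have m : 0 < mf M a (rd p) * Real.exp (ka M a * p.1) := by unfold mf; positivity
  have e : (mf M a (rd p) * Real.exp (ka M a * p.1)) ^ 2 =
      (rd p - rp M a) * Real.exp (2 * ka M a * (p.1 - tS M a (rd p))) := by
    have := (ka_pos h).ne'
    have := (rp_pos h).ne'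
    rw [mf, Real.rpow_def_of_pos a2, ← Real.exp_add, ← Real.exp_nat_mul, ← Real.exp_log a1,
      ← Real.exp_add, tS, Fq]
    congr 1
    field_simp
    push_cast
    ring
  refine ⟨(rd p - rp M a) / (2 * (mf M a (rd p) * Real.exp (ka M a * p.1))), by positivity, ?_⟩
  change (-(rd p - rp M a) / _ + _) / 2 = _
  generalize mf M a (rd p) * Real.exp (ka M a * p.1) = V at *
  field_simp
  linear_combination e

theorem chf : CHF := by
  intro M a h
  have hM := M_pos h
  have θ1 : rm M a / rp M a < 1 := (div_lt_one (rp_pos h)).2 (rm_lt h)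
  have rp3 : ∀ M' a' : ℝ, |a'| < M' → M' < 3 * M / 2 → rp M' a' < 3 * M := fun M' a' k k' => by
    have : √(M' ^ 2 - a' ^ 2) ≤ M' :=
      Real.sqrt_le_iff.2 ⟨(M_pos k).le, sub_le_self _ (sq_nonneg _)⟩
    unfold rp; linarith
  have ev : ∀ᶠ p : ℝ × ℝ in 𝓝 (M, a), |p.2| < p.1 ∧ p.1 < 3 * M / 2 ∧
      rm p.1 p.2 / rp p.1 p.2 < (1 + rm M a / rp M a) / 2 :=
    (ContinuousAt.eventually_lt (by fun_prop) (by fun_prop) h).and
      ((ContinuousAt.eventually_lt (by fun_prop) (by fun_prop) (by simp only; linarith)).and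
        (ContinuousAt.eventually_lt (ContinuousAt.div (by unfold rm; fun_prop)
          (by unfold rp; fun_prop) (rp_pos h).ne') continuousAt_const (by simp only; linarith)))
  obtain ⟨ε, ε0, hε⟩ := Metric.eventually_nhds_iff.1 ev
  generalize hθ : (1 + rm M a / rp M a) / 2 = θ at hε
  refine ⟨min ε (1 / 100), by positivity, 6 * M + Real.exp (Real.log 2 / (1 - θ)), by
    linarith [Real.exp_pos (Real.log 2 / (1 - θ))], fun q σ T hq => ?_⟩
  obtain ⟨q1, q2, q3, q4, -⟩ := hq
  obtain ⟨k1, k2, k3⟩ := hε (y := (q.M, q.a))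
    (max_lt (q1.trans_le (min_le_left _ _)) (q2.trans_le (min_le_left _ _)))
  dsimp only at k1 k2 k3
  have l9 : 99 / 100 < q.l := by linarith [(abs_lt.1 (q3.trans_le (min_le_right _ _))).1]
  have r3 := rp3 _ _ k1 k2
  have il : ∀ p, P354YM.inv q (q.lin p) = p := fun p => by
    rw [P354YM.inv.eq_1, lin_fst, Par.lin, xs_pt]
    simp only [mulVec_mulVec, q4, one_mulVec]
    exact Prod.ext (mul_div_cancel_left₀ _ (by linarith)) rfl
  have cd : ∀ z : R4, 3 * M < z.2.1 → ContDiffAt ℝ ∞ (Tq q σ T) z := fun z hz =>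
    (linL q).contDiff.contDiffAt.comp z (Th_cd k1 (r3.trans hz))
  have o3 : IsOpen {z : R4 | 3 * M < z.2.1} := isOpen_lt continuous_const continuous_snd.fst
  refine ⟨fun g D o m => ⟨ContinuousOn.isOpen_inter_preimage
    (fun z hz => (cd z hz).continuousAt.continuousWithinAt) o3 o, o, m,
    fun z hz => (cd z hz.1).contDiffWithinAt, fun _ hz => hz.2, fun z hz => ?_,
    fun _ _ _ _ => rfl⟩, fun z hz z' hz' e => ?_, fun z hz => ?_⟩
  · rw [Tq, fderiv_comp (g := q.lin) z (linL q).differentiableAt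
      ((Th_cd k1 (r3.trans hz.1)).differentiableAt (by simp)),
      show fderiv ℝ q.lin _ = linL q from (linL q).fderiv]
    exact (Function.LeftInverse.injective (f := linL q) il).comp (th_inj k1 (r3.trans hz.1))
  · have := congrArg (li q.M q.a σ T ∘ P354YM.inv q) e
    simp only [Tq, Function.comp_apply, il] at this
    rwa [li_Th (lt_trans (by linarith) hz), li_Th (lt_trans (by linarith) hz')] at this
  have z0 : 0 ≤ z.2.1 := by linarith
  have e1 : rd (Tq q σ T z) = z.2.1 := (rd_lin q4 _).trans (rd_Th z0)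
  have e2 : (Tq q σ T z).1 = q.l * (T - z.1 + Fq q.M q.a z.2.1) := rfl
  have e3 : fi q.l T (fz M a q) z = (Tq q σ T z).1 - tS M a z.2.1 := by rw [e2, fi, fz]; ring
  obtain ⟨k, k0, e4⟩ := kap_fst h (p := Tq q σ T z) (e1 ▸ (rp3 M a h (by linarith)).trans hz)
  rw [e1, ← e3] at e4
  have κ : 0 < 2 * ka M a := by have := ka_pos h; positivity
  have x0 := Real.exp_pos (Real.log 2 / (1 - θ))
  refine ⟨e1, by rw [Tq, Function.comp_apply, il, ur_Th z0], ?_, ?_, fun hr hf => ?_, fun hr => ?_,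
    fun c hc hy => ?_⟩
  · rw [e4, mul_pos_iff_of_pos_left k0, sub_pos, Real.one_lt_exp_iff, mul_pos_iff_of_pos_left κ]
  · rw [e4, mul_eq_zero_iff_left k0.ne', sub_eq_zero, Real.exp_eq_one_iff,
      mul_eq_zero_iff_left κ.ne']
  · have := le_fq (r := z.2.1) (θ := θ) h (rp3 M a h (by linarith)).le (by linarith) (by linarith)
      (by linarith) (by linarith)
    rw [e3, tS] at hf
    linarith
  · have := le_fq (r := z.2.1) (θ := θ) k1 r3.le (by linarith) k3.le (by linarith) (by linarith)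
    rw [e2]
    nlinarith
  · have d := li_den (M := q.M) (a := q.a) (c := T) σ z
    have r := P354XA.rd_sq (Th q.M q.a σ T z)
    rw [rd_Th z0, P354XA.ip] at r
    have b0 := abs_lt.1 (hc.2.2.2.2 2 0)
    have b1 := abs_lt.1 (hc.2.2.2.2 2 1)
    have b2 := abs_lt.1 (hc.2.2.2.2 2 2)
    simp only [Matrix.sub_apply, one_apply_eq, ne_eq, Fin.reduceEq, not_false_eq_true, one_apply_ne,
      sub_zero] at b0 b1 b2
    have c0 : 0 < c := by linarith
    have z1 : 0 < z.2.1 := by linarith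
    have k : z.2.1 * (1 + c / 2) ≤ 2 * z.2.1 / qq z.2.2 := by
      rw [le_div_iff₀ (qq_pos _), qq]
      nlinarith [mul_le_mul_of_nonneg_left hy (by positivity : 0 ≤ z.2.1 * (1 + c / 2)),
        mul_pos z1 (mul_pos c0 c0)]
    rw [Tq, Function.comp_apply, P354XA.lin_eq]
    generalize Th q.M q.a σ T z = p at *
    have s := sg_sq σ
    have u : ∀ x t : ℝ, x * x ≤ z.2.1 ^ 2 → -(c / 20) < t ∧ t < c / 20 →
        -(c / 20 * z.2.1) ≤ t * (sg σ * x) := fun x t hx ht => by
      have := abs_le_of_sq_le_sq' (a := sg σ * x) (by rw [mul_pow, sq, s]; linarith) z0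
      have h1 : |t * (sg σ * x)| ≤ c / 20 * z.2.1 := by
        rw [abs_mul]
        exact mul_le_mul (abs_lt.2 ht).le (abs_le.2 this) (abs_nonneg _) (by positivity)
      exact (abs_le.1 h1).1
    have n0 := mul_self_nonneg p.2.1
    have n1 := mul_self_nonneg p.2.2.1
    have n2 := mul_self_nonneg p.2.2.2
    have u0 := u p.2.1 _ (by linarith) b0
    have u1 := u p.2.2.1 _ (by linarith) b1
    have u2 := u p.2.2.2 _ (by linarith) b2
    linarith [mul_pos c0 z1]

end Vale.Agent.P354LA
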