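import Vale.Agent.P354SA.Far

/-!
FAT: from bounds on the closed region to Ray.
-/

set_option linter.all false
set_option maxSynthPendingDepth 3

open scoped ContDiff
open Set Filter Topology Metric

noncomputable section

namespace Vale.Agent.P354LA

open Vale.Agent.P354n (R4)
open Vale.Agent.P354H (X3)
open Vale.Agent.P354R (Met Vac)
open Vale.Agent.P354RC (Rm B2 at_fd)
open Vale.Agent.P354XD (tb rp_tb)
open Vale.Agent.P354XE (Tw)
open Vale.Agent.P354YQ (SA JB JD)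
open Vale.Agent.P354SA

section
variable {Z X V : Type} [NormedAddCommGroup Z] [NormedSpace ℝ Z] [NormedAddCommGroup X]
  [NormedSpace ℝ X] [NormedAddCommGroup V] [NormedSpace ℝ V] {F : Z × X → V} {q : Z × X}

theorem par_cd (h : ContDiffAt ℝ ∞ F q) : ∀ i : ℕ,
    ContDiffAt ℝ ∞ (fun q : Z × X => iteratedFDeriv ℝ i (fun ξ => F (q.1, ξ)) q.2) q
  | 0 => (continuousMultilinearCurryFin0 ℝ X V).symm.contDiff.contDiffAt.comp q h
  | i + 1 => (continuousMultilinearCurryLeftEquiv ℝ (fun _ : Fin (i + 1) => X) V).symm.contDiff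
      |>.contDiffAt.comp q (ContDiffAt.fderiv (n := ∞) (g := Prod.snd)
        (f := fun (q : Z × X) ξ => iteratedFDeriv ℝ i (fun ξ => F (q.1, ξ)) ξ)
        ((par_cd h i).comp (f := fun r : (Z × X) × X => (r.1.1, r.2)) (q, q.2) (by fun_prop))
        contDiffAt_snd (by simp))

/-- Strict bounds of jets are open. -/
theorem jb_ev {n : ℕ} {p : Z → X} {z0 : Z} {c : Z → ℝ} {c0 : ℝ} (hF : SA F (z0, p z0))
    (hp : ContinuousAt p z0) (hc : ContinuousAt c z0) (lt : c0 < c z0)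
    (h : JB n (fun ξ => F (z0, ξ)) (p z0) c0) :
    ∀ᶠ z in 𝓝 z0, JB n (fun ξ => F (z, ξ)) (p z) (c z) := by
  have k : ContinuousAt (fun z => (z, p z)) z0 := continuousAt_id.prodMk hp
  have : ∀ᶠ z in 𝓝 z0, ∀ i ∈ Finset.range (n + 1),
      ‖iteratedFDeriv ℝ i (fun ξ => F (z, ξ)) (p z)‖ < c z :=
    (eventually_all_finset _).2 fun i hi => ContinuousAt.eventually_lt
      (ContinuousAt.comp (f := fun z => (z, p z)) (par_cd hF.at i).continuousAt k).norm hc
      ((h.le i (Nat.lt_succ_iff.1 (Finset.mem_range.1 hi))).trans_lt lt)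
  filter_upwards [this, k.eventually hF.ev] with z h1 h2
  exact ⟨h2.comp (f := fun ξ => (z, ξ)) (.of (by fun_prop)),
    fun i hi => (h1 i (Finset.mem_range.2 (Nat.lt_succ_of_le hi))).le⟩

end

variable {g : Tw} {O : Set R4} {z : R4} {n : ℕ}

theorem cl_ev {f : R4 → R4 → ℝ} {l c0 : ℝ} {c : R4 → ℝ}
    (hf : SA (fun q : R4 × R4 => f q.1 q.2) (z, z)) (hc : ContinuousAt c z) (lt : c0 < c z)
    (h : Cl n l 1 (f z) z c0) : ∀ᶠ x in 𝓝 z, Cl n l 1 (f x) x (c x) := by
  have e : dl l 1 z 0 = z := by simp [dl]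
  refine jb_ev (F := fun q : R4 × R4 => f q.1 (dl l 1 q.1 q.2)) (p := fun _ => 0)
    (SA.comp (u := fun q : R4 × R4 => f q.1 q.2) (f := fun q : R4 × R4 => (q.1, dl l 1 q.1 q.2))
      (by simpa only [e] using hf) (.of (by unfold dl; fun_prop))) continuousAt_const hc lt h

theorem cl_ev' {f : R4 → ℝ} {l c0 : ℝ} {c : R4 → ℝ} (hf : SA f z) (hc : ContinuousAt c z)
    (lt : c0 < c z) (h : Cl n l 1 f z c0) : ∀ᶠ x in 𝓝 z, Cl n l 1 f x (c x) :=
  cl_ev (f := fun _ => f) (hf.comp (f := Prod.snd) (z := (z, z)) (.of contDiff_snd)) hc lt h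

theorem jb_ev' {f : R4 → ℝ} {c0 c : ℝ} (hf : SA f z) (lt : c0 < c) (h : JB n f z c0) :
    ∀ᶠ x in 𝓝 z, JB n f x c :=
  jb_ev (F := fun q : R4 × R4 => f q.2) (p := id) (c := fun _ => c)
    (hf.comp (f := Prod.snd) (z := (z, z)) (.of contDiff_snd)) continuousAt_id continuousAt_const
    lt h

theorem fl {Z A B C : Type} [NormedAddCommGroup Z] [NormedSpace ℝ Z] [NormedAddCommGroup A]
    [NormedSpace ℝ A] [NormedAddCommGroup B] [NormedSpace ℝ B] [NormedAddCommGroup C]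
    [NormedSpace ℝ C] {f : Z → A →L[ℝ] B →L[ℝ] C} {q : Z} (h : ContDiffAt ℝ ∞ f q) :
    ContDiffAt ℝ ∞ (fun y => (f y).flip) q :=
  (ContinuousLinearMap.flipₗᵢ ℝ A B C).contDiff.contDiffAt.comp q h

/-- The points where the parts of the metric make sense. -/
structure Gd (g : Tw) (O : Set R4) (z : R4) : Prop where
  o : IsOpen O
  m : Met g O
  z0 : z ∈ O
  om : Om g z ≠ 0
  dg : dg g z ≠ 0

namespace Gd
variable (h : Gd g O z)
include h

theorem c (v w : R4) : ContDiffAt ℝ ∞ (fun y => g y v w) z :=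
  (h.m.smooth v w).contDiffAt (h.o.mem_nhds h.z0)
theorem cO : ContDiffAt ℝ ∞ (Om g) z := h.c _ _
theorem cg (a b : Fin 2) : ContDiffAt ℝ ∞ (gm g a b) z := h.c _ _
theorem cd : ContDiffAt ℝ ∞ (P354SA.dg g) z :=
  ((h.cg 0 0).mul (h.cg 1 1)).sub ((h.cg 0 1).pow 2)
theorem ev : ∀ᶠ y in 𝓝 z, Gd g O y := by
  filter_upwards [h.o.mem_nhds h.z0, h.cO.continuousAt.eventually_ne h.om,
    h.cd.continuousAt.eventually_ne h.dg] with y a b c using ⟨h.o, h.m, a, b, c⟩
theorem ci (a b : Fin 2) : ContDiffAt ℝ ∞ (gi g a b) z := by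
  refine ContDiffAt.div ?_ h.cd h.dg
  fin_cases a <;> fin_cases b
  exacts [h.cg 1 1, (h.cg 0 1).neg, (h.cg 0 1).neg, h.cg 0 0]
theorem c1 (a : Fin 2) : ContDiffAt ℝ ∞ (a1 g a) z :=
  ContDiffAt.sum fun b _ => (h.ci a b).mul (h.c _ _)
theorem c0 : ContDiffAt ℝ ∞ (a0 g) z :=
  ((ContDiffAt.sum fun a _ => (h.c1 a).mul (h.c _ _)).sub (h.c _ _)).div
    (contDiffAt_const.mul h.cO) (mul_ne_zero two_ne_zero h.om)
theorem c2 (a b : Fin 2) : ContDiffAt ℝ ∞ (a2 g a b) z := (h.cO.mul (h.ci a b)).div_const 2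
theorem cl : ContDiffAt ℝ ∞ (lh g) z :=
  h.c0.prodMk (contDiffAt_const.prodMk ((h.c1 0).neg.prodMk (h.c1 1).neg))

omit h in
theorem cv {f : R4 → ℝ} (k : ContDiffAt ℝ ∞ f z) (v : R4) : ContDiffAt ℝ ∞ (dv v f) z :=
  (at_fd k).clm_apply contDiffAt_const

theorem cy (c : Fin 2) : ContDiffAt ℝ ∞ (fun x => yc c (lh g x)) z := by
  fin_cases c
  exacts [(h.c1 0).neg, (h.c1 1).neg]
theorem cL (a b : Fin 2) : ContDiffAt ℝ ∞ (lie g (lh g) a b) z :=
  ((at_fd (h.cg a b)).clm_apply h.cl).add (ContDiffAt.sum fun c _ =>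
    ((h.cg c b).mul (cv (h.cy c) _)).add ((h.cg a c).mul (cv (h.cy c) _)))

theorem cR {r : R4 → ℝ} {x : R4} (hr : ContDiffAt ℝ ∞ r x) (r0 : r x ≠ 0) (i j k o : Fin 4) :
    ContDiffAt ℝ ∞ (fun q : R4 × R4 => rie g (fv (lh g) e0 (r q.1)) i j k o q.2) (x, z) := by
  have R := rp_tb h.o h.m
  have π : ContDiffAt ℝ ∞ (Prod.snd : R4 × R4 → R4) (x, z) := contDiffAt_snd
  have k0 := (R.at h.z0).comp (x, z) π
  have k1 := (at_fd (R.at h.z0)).comp (x, z) π
  have k2 := (at_fd (at_fd (R.at h.z0))).comp (x, z) π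
  have ki := (R.inv_cd h.z0).comp (x, z) π
  have ri := (hr.comp (x, z) contDiffAt_fst).inv r0
  have f : ∀ i, ContDiffAt ℝ ∞ (fun q : R4 × R4 => fv (lh g) e0 (r q.1) q.2 i) (x, z) := fun i => by
    have a := h.cl.comp (x, z) π
    have b := fun v : R4 => ri.smul (contDiffAt_const (c := v))
    fin_cases i
    exacts [a, contDiffAt_const, b _, b _]
  have d : ∀ a b c u, ContDiffAt ℝ ∞ (fun q : R4 × R4 => P354RC.dC (tb g) q.2
      (fv (lh g) e0 (r q.1) q.2 a) (fv (lh g) e0 (r q.1) q.2 b) (fv (lh g) e0 (r q.1) q.2 c)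
      (fv (lh g) e0 (r q.1) q.2 u)) (x, z) := fun a b c u =>
    ((((((k2.clm_apply (f a)).clm_apply (f b)).clm_apply (f c)).clm_apply (f u)).add
      ((((k2.clm_apply (f a)).clm_apply (f c)).clm_apply (f b)).clm_apply (f u))).sub
      ((((k2.clm_apply (f a)).clm_apply (f u)).clm_apply (f b)).clm_apply (f c))).div_const _
  have G : ∀ a b, ContDiffAt ℝ ∞ (fun q : R4 × R4 => P354RC.Gm (tb g) q.2
      (fv (lh g) e0 (r q.1) q.2 a) (fv (lh g) e0 (r q.1) q.2 b)) (x, z) := fun a b =>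
    ki.clm_apply (((((k1.clm_apply (f a)).clm_apply (f b)).add ((k1.clm_apply (f b)).clm_apply
      (f a))).sub ((fl ((fl k1).clm_apply (f a))).clm_apply (f b))).const_smul _)
  exact (((d _ _ _ _).sub (d _ _ _ _)).sub ((k0.clm_apply (G _ _)).clm_apply (G _ _))).add
    ((k0.clm_apply (G _ _)).clm_apply (G _ _))

end Gd

theorem gd_of {C0 C r m l rc : ℝ} (o : IsOpen O) (mt : Met g O) (hz : z ∈ O) (C1 : 0 < C)
    (r0 : 0 < r) (h : Rp n C0 C r m l rc g z) : Gd g O z :=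
  ⟨o, mt, hz, (lt_of_lt_of_le (by positivity) h.pos.1).ne',
    (lt_of_lt_of_le (by positivity) h.pos.2.1).ne'⟩

theorem rp_ev {C0 C l : ℝ} {r m rc : R4 → ℝ} (G : Gd g O z) (nul : ∀ y ∈ O, Nul g y) (C01 : 0 < C0)
    (C1 : 0 < C) (hr : ContDiff ℝ ∞ r) (hm : Continuous m) (hc : Continuous rc) (r0 : 0 < r z)
    (m0 : 0 < m z) (c0 : 0 < rc z) (h : Rp n C0 C (r z) (m z) l (rc z) g z) :
    ∀ᶠ x in 𝓝 z, Rp n (2 * C0) (2 * C) (r x) (m x) l (rc x) g x := by
  have cr := hr.continuous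
  have t : ∀ {x : ℝ}, 0 < x → x < 2 * x := fun k => by linarith
  have i2 : (2 * C)⁻¹ < C⁻¹ := inv_strictAnti₀ C1 (t C1)
  have s : ∀ {f : R4 → ℝ}, (∀ y, Gd g O y → ContDiffAt ℝ ∞ f y) → SA f z := fun k => G.ev.mono k
  have u : ∀ {x : ℝ}, 0 < x → C * x < 2 * C * x := fun k => mul_lt_mul_of_pos_right (t C1) k
  filter_upwards [G.o.mem_nhds G.z0,
    continuousAt_const.eventually_lt G.cO.continuousAt (i2.trans_le h.pos.1),
    (show ContinuousAt (fun x => (2 * C)⁻¹ * r x ^ 4) z by fun_prop).eventually_lt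
      G.cd.continuousAt ((mul_lt_mul_of_pos_right i2 (by positivity)).trans_le h.pos.2.1),
    continuousAt_const.eventually_lt (G.cg 0 0).continuousAt h.pos.2.2,
    cl_ev' (s fun _ => Gd.cO) continuousAt_const (t C1) h.one.1,
    cl_ev' (s fun _ => Gd.c0) continuousAt_const (t C1) h.one.2.1,
    eventually_all.2 fun a => cl_ev' (s fun _ k => k.c1 a) continuousAt_const (t C1)
      (h.one.2.2.1 a),
    eventually_all.2 fun a => eventually_all.2 fun b => cl_ev' (c := fun x => 2 * C * r x ^ 2)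
      (s fun _ k => k.cg a b) (by fun_prop) (u (by positivity)) (h.one.2.2.2 a b),
    cl_ev' (c := fun x => 2 * C * m x) (s fun _ k => Gd.cv k.cO _) (by fun_prop) (u m0) h.dO,
    cl_ev' (c := fun x => 2 * C * m x) (s fun _ k => Gd.cv k.c0 _) (by fun_prop) (u m0) h.d0,
    eventually_all.2 fun a => cl_ev' (c := fun x => 2 * C * m x / r x)
      (s fun _ k => Gd.cv (k.c1 a) _) (by fun_prop (disch := exact r0.ne'))
      (div_lt_div_of_pos_right (u m0) r0) (h.d1 a),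
    eventually_all.2 fun a => eventually_all.2 fun b =>
      cl_ev' (c := fun x => 2 * C * r x ^ 2 * m x) (s fun _ k => Gd.cv (k.cg a b) _) (by fun_prop)
        (mul_lt_mul_of_pos_right (u (by positivity)) m0) (h.dg a b),
    eventually_all.2 fun a => eventually_all.2 fun b =>
      cl_ev' (c := fun x => 2 * C * r x ^ 2 * m x) (s fun _ k => k.cL a b) (by fun_prop)
        (mul_lt_mul_of_pos_right (u (by positivity)) m0) (h.chi a b),
    eventually_all.2 fun i => eventually_all.2 fun j => eventually_all.2 fun k =>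
      eventually_all.2 fun o => cl_ev (f := fun x => rie g (fv (lh g) e0 (r x)) i j k o)
        (c := fun x => 2 * C * m x) (((continuousAt_fst.eventually
          (cr.continuousAt.eventually_ne r0.ne')).and (continuousAt_snd.eventually G.ev)).mono
            fun q hq => hq.2.cR hr.contDiffAt hq.1 i j k o) (by fun_prop) (u m0) (h.cur i j k o),
    jb_ev' (s fun _ => Gd.c0) (t C01) h.sharp.1,
    eventually_all.2 fun a => jb_ev' (s fun _ k => k.c1 a) (t C01) (h.sharp.2.1 a),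
    eventually_all.2 fun a => eventually_all.2 fun b =>
      (jb_ev' (s fun _ k => k.c2 a b) (t C01) (h.sharp.2.2 a b).1).and
        ((G.c2 a b).continuousAt.abs.eventually_lt (g := fun x => 2 * C0 / rc x ^ 2)
          (by fun_prop (disch := positivity)) ((h.sharp.2.2 a b).2.trans_lt
            (div_lt_div_of_pos_right (t C01) (by positivity))))]
    with x a1 a2 a3 a4 a5 a6 a7 a8 a9 b1 b2 b3 b4 b5 b6 b7 b8
  exact ⟨nul x a1, ⟨a2.le, a3.le, a4⟩, ⟨a5, a6, a7, a8⟩, a9, b1, b2, b3, b4, b5,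
    b6, b7, fun a b => ⟨(b8 a b).1, (b8 a b).2.le⟩⟩

theorem jb_pos (x : ℝ) : 0 < jb x := Real.sqrt_pos.2 (by positivity)
theorem jb_cd : ContDiff ℝ ∞ jb :=
  (contDiff_const.add (contDiff_id.pow 2)).sqrt fun x => by positivity
theorem mm_pos (a σ x : ℝ) : 0 < mm a σ x :=
  add_pos (inv_pos.2 (jb_pos _)) (Real.rpow_pos_of_pos (jb_pos _) _)
theorem mm_cont (a σ : ℝ) : Continuous (mm a σ) :=
  (jb_cd.continuous.inv₀ fun _ => (jb_pos _).ne').add
    ((jb_cd.continuous.comp (continuous_id.sub continuous_const)).rpow_const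
      fun _ => .inl (jb_pos _).ne')

theorem fat : FAT := by
  intro n C0 C ε T L w δ0 sc σ S g O C01 C1 d0 hsc hσ hw T20 ε1 hO mt vc H B
  have oW : IsOpen (Wk w 1) := (isOpen_Ioo.preimage continuous_fst).inter
    (isOpen_lt continuous_snd.norm continuous_const)
  have cS : ContinuousOn (fun z : R4 => S z.2) (Prod.snd ⁻¹' Wk w 1) := fun z hz =>
    ((B _ hz).2.1.cont.comp continuousAt_snd).continuousWithinAt
  have o : IsOpen O := by
    rw [hO]
    refine isOpen_iff_mem_nhds.2 fun z hz => ?_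
    filter_upwards [continuousAt_snd.eventually (oW.mem_nhds hz.1.1),
      continuousAt_fst.eventually (lt_mem_nhds hz.1.2.1),
      continuousAt_fst.eventually_lt (((B _ hz.1.1).2.1.cont.comp continuousAt_snd).add
        continuousAt_const) hz.1.2.2,
      ContinuousAt.eventually_lt (f := fun z : R4 => z.2.1 - δ0) (by fun_prop) continuousAt_fst
        hz.2] with y a b c d
    exact ⟨⟨a, b, c⟩, d⟩
  have hK : IsCompact (Icc (-5 * w) (6 * w) ×ˢ closedBall (0 : Y2) (15 / 2)) :=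
    isCompact_Icc.prod (isCompact_closedBall _ _)
  have sK : ∀ x ∈ Icc (-5 * w) (6 * w) ×ˢ closedBall (0 : Y2) (15 / 2), x ∈ Wk w 1 ∧
      |x.1| ≤ 3 / 5 ∧ 19 / 10 * T ≤ S x := fun x hx => by
    have m : x ∈ Wk w 1 := ⟨⟨by linarith [hx.1.1, hw.1], by linarith [hx.1.2, hw.1]⟩,
      by linarith [mem_closedBall_zero_iff.1 hx.2]⟩
    exact ⟨m, abs_le.2 ⟨by linarith [hx.1.1, hw.2], by linarith [hx.1.2, hw.2]⟩,
      by nlinarith [(abs_le.1 (B x m).1.1).1]⟩
  have sW : Wn w ⊆ Icc (-5 * w) (6 * w) ×ˢ closedBall (0 : Y2) (15 / 2) := fun x hx =>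
    ⟨Ioo_subset_Icc_self hx.1, mem_closedBall_zero_iff.2 hx.2.le⟩
  have mO : ∀ z : R4, z.2 ∈ Icc (-5 * w) (6 * w) ×ˢ closedBall (0 : Y2) (15 / 2) →
      z.2.1 - min δ0 1 < z.1 → z.1 < S z.2 + δ0 → z ∈ O := fun z a b c => hO ▸
    ⟨⟨(sK _ a).1, by linarith [min_le_right δ0 1, (abs_le.1 (sK _ a).2.1).1], c⟩,
      by linarith [min_le_left δ0 1]⟩
  have d1 : 0 < min δ0 1 := lt_min d0 one_pos
  have key : ∀ z ∈ O, z.2.1 ≤ z.1 → z.1 ≤ S z.2 → Gd g O z ∧ ∀ᶠ x in 𝓝 z, Rp n (2 * C0) (2 * C)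
      (jb (x.1 - x.2.1)) (mm T σ (x.1 - x.2.1)) (if 5 / 3 * T ≤ z.1 - z.2.1 then L else 1)
      (jb (x.1 - x.2.1 - sc)) g x := fun z hz a b => by
    have r := (H z hz).2.1 a b
    have G := gd_of o mt hz (by linarith) (jb_pos _) r
    exact ⟨G, rp_ev G (fun y hy => (H y hy).1) (by linarith) (by linarith)
      (jb_cd.comp (by fun_prop)) ((mm_cont T σ).comp (by fun_prop))
      (jb_cd.continuous.comp (by fun_prop)) (jb_pos _) (mm_pos _ _ _) (jb_pos _) r⟩
  have top := hK.eventually_forall_of_forall_eventually (x₀ := (0 : ℝ))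
    (P := fun τ x => Rp n (2 * C0) (2 * C) (jb (x.1 + τ - x.1)) (mm T σ (x.1 + τ - x.1)) 1
      (jb (x.1 + τ - x.1 - sc)) g (x.1 + τ, x) ∧ |a0 g (x.1 + τ, x)| < 1 / 10) fun x hx => by
    have m := mO (x.1, x) hx (by simpa using d1)
      (by linarith [(sK x hx).2.2, (abs_le.1 (sK x hx).2.1).2])
    obtain ⟨G, k⟩ := key _ m le_rfl (by linarith [(sK x hx).2.2, (abs_le.1 (sK x hx).2.1).2])
    rw [if_neg (by simp only [sub_self]; linarith)] at k
    have t : Tendsto (fun q : ℝ × X3 => ((q.2.1 + q.1, q.2) : R4)) (𝓝 (0, x)) (𝓝 (x.1, x)) := by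
      have : ContinuousAt (fun q : ℝ × X3 => ((q.2.1 + q.1, q.2) : R4)) (0, x) := by fun_prop
      simpa only [ContinuousAt, add_zero] using this
    exact t.eventually (k.and (G.c0.continuousAt.abs.eventually_lt continuousAt_const
      (((H _ m).2.2 rfl).trans_lt (by norm_num))))
  have bot := hK.eventually_forall_of_forall_eventually (x₀ := (0 : ℝ))
    (P := fun τ x => Rp n (2 * C0) (2 * C) (jb (S x + τ - x.1)) (mm T σ (S x + τ - x.1)) L
      (jb (S x + τ - x.1 - sc)) g (S x + τ, x) ∧ trv S g (S x + τ, x) ∈ Ioo (2 * C)⁻¹ (2 * C))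
    fun x hx => by
    obtain ⟨m1, m2, m3⟩ := sK x hx
    have m := mO (S x, x) hx (by linarith [(abs_le.1 m2).2]) (by linarith)
    obtain ⟨G, k⟩ := key _ m (by linarith [(abs_le.1 m2).2]) le_rfl
    rw [if_pos (by linarith [(abs_le.1 m2).2])] at k
    have t : Tendsto (fun q : ℝ × X3 => ((S q.2 + q.1, q.2) : R4)) (𝓝 (0, x)) (𝓝 (S x, x)) := by
      have : ContinuousAt (fun q : ℝ × X3 => ((S q.2 + q.1, q.2) : R4)) (0, x) :=
        (((B x m1).2.1.cont.comp continuousAt_snd).add continuousAt_fst).prodMk continuousAt_snd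
      simpa only [ContinuousAt, add_zero] using this
    have ct : ContinuousAt (trv S g) (S x, x) :=
      (((B x m1).2.1.fderiv.cont.comp continuousAt_snd).clm_apply G.cl.continuousAt.snd).sub
        G.c0.continuousAt
    exact t.eventually (k.and (ct.eventually (isOpen_Ioo.mem_nhds
      ⟨(inv_strictAnti₀ (by linarith) (by linarith)).trans_le (B x m1).2.2.1,
        (B x m1).2.2.2.trans_lt (by linarith)⟩)))
  obtain ⟨δ1, δ1p, hδ⟩ := Metric.eventually_nhds_iff.1 (top.and bot)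
  have k1 := min_le_left (min δ0 1) (δ1 / 2)
  have k2 := min_le_right (min δ0 1) (δ1 / 2)
  have k3 : 0 < min (min δ0 1) (δ1 / 2) := by positivity
  have k4 := min_le_left δ0 1
  have k5 := min_le_right δ0 1
  generalize min (min δ0 1) (δ1 / 2) = δ at k1 k2 k3
  have sO : RD w δ S ⊆ O := fun z hz => mO z (sW hz.1) (by linarith [hz.2.1]) (by linarith [hz.2.2])
  have tp : ∀ z ∈ RD w δ S, z.1 - z.2.1 ≤ δ → _ := fun z hz a => by
    have := (hδ (y := z.1 - z.2.1) (by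
      rw [Real.dist_0_eq_abs, abs_lt]; constructor <;> linarith [hz.2.1])).1 _ (sW hz.1)
    rw [add_sub_cancel] at this
    exact this
  have bt : ∀ z ∈ RD w δ S, S z.2 - δ ≤ z.1 → _ := fun z hz a => by
    have := (hδ (y := z.1 - S z.2) (by
      rw [Real.dist_0_eq_abs, abs_lt]; constructor <;> linarith [hz.2.2])).2 _ (sW hz.1)
    rw [add_sub_cancel] at this
    exact this
  obtain ⟨G, hG⟩ := vc
  refine ⟨δ, ⟨k3, by linarith⟩, ⟨by linarith, by linarith, k3, by linarith,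
    ⟨hsc.1, by linarith [hsc.2]⟩, ⟨by linarith, by linarith⟩, hσ⟩,
    ⟨fun y hy => mt.lin y (sO hy), fun y hy => mt.symm y (sO hy), fun y hy => mt.nondeg y (sO hy),
      fun a b => (mt.smooth a b).mono sO⟩, ⟨G, fun y hy => hG y (sO hy)⟩, fun z hz => ?_,
    fun z hz a => (tp z hz a).2.le, fun x hx => ?_, fun z hz a => Ioo_subset_Icc_self (bt z hz a).2⟩
  · obtain ⟨m1, m2, m3⟩ := sK _ (sW hz.1)
    rcases lt_or_ge z.1 z.2.1 with a | a
    · rw [if_neg (by linarith)]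
      exact (tp z hz (by linarith)).1
    rcases lt_or_ge (S z.2) z.1 with b | b
    · rw [if_pos (by linarith [(abs_le.1 m2).2])]
      exact (bt z hz (by linarith)).1
    exact (key z (sO hz) a b).2.self_of_nhds
  · obtain ⟨b1, b2, b3, b4⟩ := (B x (sK _ (sW hx)).1).1
    have := (norm_nonneg _).trans (b3.le 1 le_rfl (by omega))
    exact ⟨b1, b2, b3.mono (by linarith), b4.mono (by linarith)⟩

end Vale.Agent.P354LA
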