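import Vale.Agent.P354LF.Defs
import Vale.Agent.P354XM.Arg2
import Vale.Agent.P354XM.Main
import Vale.Agent.P354YI.Met

/-!
SPINE: bounds for fields of forms, the Kerr family, chains.
-/

set_option linter.all false
set_option maxSynthPendingDepth 3

open scoped ContDiff
open Set Filter Topology Metric

noncomputable section

namespace Vale.Agent.P354LA

open Vale.Agent.P354n (R4)
open Vale.Agent.P354R (Met Pull)
open Vale.Agent.P354RC (B2 pb_cd pb_ap k2 at_fd at_df)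
open Vale.Agent.P354XD (tb rp_tb)
open Vale.Agent.P354XE (Tw Bd pb gin rd xs)
open Vale.Agent.P354XA (rd_cont rd_sq rd_nonneg ip)
open Vale.Agent.P354XM
open Vale.Agent.P354YI (Oj tb_sub)

variable {f g : Tw} {x : R4} {m : ℕ} {c c' : ℝ}

theorem bd_iff : Bd m f x c ↔ ∀ v w, Jb m (fun y => f y v w) x (c * (‖v‖ * ‖w‖)) :=
  ⟨fun h v w k hk => h k hk v w, fun h k hk v w => h v w k hk⟩

theorem bd_mono {m' : ℕ} (h : Bd m f x c) (hm : m' ≤ m) (hc : c ≤ c') : Bd m' f x c' :=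
  fun k hk v w => (h k (hk.trans hm) v w).trans (mul_le_mul_of_nonneg_right hc (by positivity))

theorem bd_congr (h : Bd m f x c) (e : ∀ᶠ y in 𝓝 x, ∀ v w, g y v w = f y v w) : Bd m g x c :=
  bd_iff.2 fun v w => (bd_iff.1 h v w).congr (e.mono fun _ hy => hy v w)

theorem bd_add (sf : ∀ v w, ContDiffAt ℝ ∞ (fun y => f y v w) x)
    (sg : ∀ v w, ContDiffAt ℝ ∞ (fun y => g y v w) x) (h : Bd m f x c) (h' : Bd m g x c') :
    Bd m (f + g) x (c + c') := bd_iff.2 fun v w => by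
  rw [add_mul]
  exact Jb.add (sf v w) (sg v w) (bd_iff.1 h v w) (bd_iff.1 h' v w)

theorem bd_neg (h : Bd m (f - g) x c) : Bd m (g - f) x c := fun k hk v w => by
  have e : (fun y => (g - f) y v w) = -fun y => (f - g) y v w := funext fun y => by simp
  rw [e, iteratedFDeriv_neg_apply, norm_neg]
  exact h k hk v w

theorem bd_of_jb {h : R4 → B2} (s : ContDiffAt ℝ ∞ h x) (H : Jb m h x c)
    (e : ∀ y v w, f y v w = h y v w) : Bd m f x c := bd_iff.2 fun v w => by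
  have := Jb.clm ((ContinuousLinearMap.apply ℝ ℝ w).comp
    (ContinuousLinearMap.apply ℝ (R4 →L[ℝ] ℝ) v)) s H
  simp only [e]
  refine this.mono le_rfl ?_
  rw [mul_comm c]
  exact mul_le_mul_of_nonneg_right (ContinuousLinearMap.opNorm_le_bound _ (by positivity)
    fun A => (A.le_opNorm₂ v w).trans_eq (by ring)) H.nonneg

theorem pb_sm {D : Set R4} {b : R4 → R4} (o : IsOpen D) (hg : Met g D) (s : ContDiffAt ℝ ∞ b x)
    (h : b x ∈ D) (v w : R4) : ContDiffAt ℝ ∞ (fun y => pb b g y v w) x := by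
  refine (((pb_cd (bm_cd o hg h) s).clm_apply (contDiffAt_const (c := v))).clm_apply
    (contDiffAt_const (c := w))).congr_of_eventuallyEq ?_
  filter_upwards [s.continuousAt.eventually (o.mem_nhds h)] with y hy
  rw [pb_ap, bm_ap hg hy]
  rfl

theorem pb_bd (k : ℕ) (B : ℝ) : ∃ C, 0 ≤ C ∧ ∀ b g g' D p ε, ContDiffAt ℝ ∞ b p →
    Jb k (fderiv ℝ b) p B → IsOpen D → Met g D → Met g' D → b p ∈ D → Bd k (g - g') (b p) ε →
    Bd k (pb b g - pb b g') p (C * ε) := by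
  let J := {z : (R4 → R4) × Tw × Tw × Set R4 × R4 × ℝ // ContDiffAt ℝ ∞ z.1 z.2.2.2.2.1 ∧
    Jb k (fderiv ℝ z.1) z.2.2.2.2.1 B ∧ IsOpen z.2.2.2.1 ∧ Met z.2.1 z.2.2.2.1 ∧
    Met z.2.2.1 z.2.2.2.1 ∧ z.1 z.2.2.2.2.1 ∈ z.2.2.2.1 ∧
    Bd k (z.2.1 - z.2.2.1) (z.1 z.2.2.2.2.1) z.2.2.2.2.2}
  have o := Oj.pb (fun j : J => j.2.1) (.of1 (fun j => at_fd j.2.1) fun j => j.2.2.1)
    (Oj.tb (g := fun j : J => j.1.2.1 - j.1.2.2.1) (fun j v w =>
      ((j.2.2.2.2.1.smooth v w).sub (j.2.2.2.2.2.1.smooth v w)).contDiffAt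
        (j.2.2.2.1.mem_nhds j.2.2.2.2.2.2.1)) fun j => j.2.2.2.2.2.2.2)
  obtain ⟨C, C0, hC⟩ := o.bd' (g := fun j : J => pb j.1.1 j.1.2.1 - pb j.1.1 j.1.2.2.1) fun j => by
    filter_upwards [j.2.1.continuousAt.eventually (j.2.2.2.1.mem_nhds j.2.2.2.2.2.2.1)] with
      y hy v w
    rw [pb_ap, tb_sub, sub_apply, sub_apply, ← (rp_tb j.2.2.2.1 j.2.2.2.2.1).eq _ hy,
      ← (rp_tb j.2.2.2.1 j.2.2.2.2.2.1).eq _ hy]
    rfl
  exact ⟨C, C0, fun b g g' D p ε h1 h2 h3 h4 h5 h6 h7 =>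
    hC ⟨(b, g, g', D, p, ε), h1, h2, h3, h4, h5, h6, h7⟩⟩

theorem met_mono {D D' : Set R4} (h : Met g D) (s : D' ⊆ D) : Met g D' :=
  ⟨fun y hy => h.lin y (s hy), fun y hy => h.symm y (s hy), fun y hy => h.nondeg y (s hy),
    fun a b => (h.smooth a b).mono s⟩

theorem rd_lip (x y : R4) : |rd x - rd y| ≤ 2 * ‖x - y‖ := by
  have e : P354XE.xs x - P354XE.xs y = P354XE.xs (x - y) := by
    ext i; fin_cases i <;> simp [P354XE.xs]
  have k : rd (x - y) ≤ 2 * ‖x - y‖ := by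
    generalize x - y = z
    have a2 : |z.2.1| ≤ ‖z‖ := (norm_fst_le z.2).trans (norm_snd_le z)
    have a3 : |z.2.2.1| ≤ ‖z‖ := (norm_fst_le z.2.2).trans ((norm_snd_le z.2).trans (norm_snd_le z))
    have a4 : |z.2.2.2| ≤ ‖z‖ := (norm_snd_le z.2.2).trans ((norm_snd_le z.2).trans (norm_snd_le z))
    refine (pow_le_pow_iff_left₀ (rd_nonneg _) (by positivity) two_ne_zero).1 ?_
    rw [rd_sq, ip]
    nlinarith [abs_mul_abs_self z.2.1, abs_mul_abs_self z.2.2.1, abs_mul_abs_self z.2.2.2,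
      abs_nonneg z.2.1, abs_nonneg z.2.2.1, abs_nonneg z.2.2.2]
  exact (abs_norm_sub_norm_le (P354XE.xs x) (P354XE.xs y)).trans (by rw [e]; exact k)

theorem kerr_nd {K : Set ((ℝ × ℝ) × R4)} (hK : IsCompact K) (hW : K ⊆ Wk) : ∃ c > 0,
    ∀ p x, (p, x) ∈ K → ∀ v, ∃ w, ‖w‖ ≤ 1 ∧ c * ‖v‖ ≤ hin p x v w := by
  have ct : ContinuousOn (fun z : ((ℝ × ℝ) × R4) × R4 => ‖hin z.1.1 z.1.2 z.2‖)
      (K ×ˢ sphere (0 : R4) 1) := fun z hz => by
    have a : ContinuousAt (fun z : ((ℝ × ℝ) × R4) × R4 => hin z.1.1 z.1.2) z :=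
      ContinuousAt.comp (f := Prod.fst) (g := fun q : (ℝ × ℝ) × R4 => hin q.1 q.2)
        (famK.sm z.1 (hW hz.1)).continuousAt continuousAt_fst
    exact (a.clm_apply continuousAt_snd).norm.continuousWithinAt
  obtain ⟨c, c0, hc⟩ := (hK.prod (isCompact_sphere (0 : R4) 1)).exists_forall_le' ct (a := 0)
    fun z hz => norm_pos_iff.2 fun k => by
      have := famK.nd z.1 (hW hz.1) z.2 fun b => by rw [k]; rfl
      simpa [this] using hz.2
  refine ⟨c / 2, by positivity, fun p x m v => ?_⟩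
  rcases eq_or_ne v 0 with rfl | hv
  · exact ⟨0, by simp, by simp⟩
  have n := norm_pos_iff.2 hv
  have k := hc ((p, x), ‖v‖⁻¹ • v) ⟨m, by simp [norm_smul, n.ne']⟩
  simp only [map_smul, norm_smul, norm_inv, norm_norm] at k
  rw [le_inv_mul_iff₀ n] at k
  obtain ⟨w, w1, w2⟩ := (hin p x v).exists_lt_apply_of_lt_opNorm (r := c / 2 * ‖v‖) (by nlinarith)
  rcases le_total 0 (hin p x v w) with h | h
  · exact ⟨w, w1.le, w2.le.trans_eq (abs_of_nonneg h)⟩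
  · exact ⟨-w, by simpa using w1.le, by rw [map_neg]; exact w2.le.trans_eq (abs_of_nonpos h)⟩

theorem jb_time {u : R4 → B2} {t : ℝ} (e : ∀ y, u (y + (t, 0)) = u y) (h : Jb m u (x + (t, 0)) c) :
    Jb m u x c := by
  have := Jb.shift _ h
  rwa [funext e] at this

/-- Uniform bounds for the Kerr family on a cylinder. -/
theorem kerr_bd (p0 : ℝ × ℝ) {r : ℝ} (hr : 0 < r) (R : ℝ) (m : ℕ) : ∃ B, 0 ≤ B ∧ ∃ c > 0,
    ∀ p p' x, ‖p - p0‖ ≤ 1 → ‖p' - p0‖ ≤ 1 → r ≤ rd x → rd x ≤ R → Bd m (gin p.1 p.2) x B ∧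
      (∀ v, ∃ w, ‖w‖ ≤ 1 ∧ c * ‖v‖ ≤ gin p.1 p.2 x v w) ∧
      Bd m (gin p.1 p.2 - gin p'.1 p'.2) x (B * ‖p - p'‖) := by
  have hK : IsCompact (closedBall p0 1 ×ˢ (closedBall (0 : R4) R ∩ {x | r ≤ rd x})) :=
    (isCompact_closedBall _ _).prod
      ((isCompact_closedBall _ _).inter_right (isClosed_le continuous_const rd_cont))
  have hW : closedBall p0 1 ×ˢ (closedBall (0 : R4) R ∩ {x | r ≤ rd x}) ⊆ Wk :=
    fun q hq => hr.trans_le hq.2.2
  obtain ⟨B, B0, hB⟩ := bd_cpt m (Φ := fun q : (ℝ × ℝ) × R4 => hin q.1 q.2) hK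
    fun q hq => famK.sm q (hW hq)
  obtain ⟨c, c0, hc⟩ := kerr_nd hK hW
  refine ⟨B, B0.le, c, c0, fun p p' x hp hp' h1 h2 => ?_⟩
  have m : x + (-x.1, 0) ∈ closedBall (0 : R4) R ∩ {x | r ≤ rd x} := by
    refine ⟨mem_closedBall_zero_iff.2 ?_, h1.trans_eq (rd_add ..).symm⟩
    have := P354XA.norm_le (x + (-x.1, 0))
    rw [rd_add] at this
    simp only [Prod.fst_add, add_neg_cancel, abs_zero, zero_add] at this
    exact this.trans h2
  have t := hB p p' _ ⟨mem_closedBall_iff_norm.2 hp, m⟩ ⟨mem_closedBall_iff_norm.2 hp', m⟩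
  have s : ∀ p, ContDiffAt ℝ ∞ (hin p) x := fun p => famK.at (p := p) (hr.trans_le h1)
  have t1 : Jb _ (hin p) _ _ := t.bu
  have t2 : Jb _ (hin p - hin p') _ _ := t.bd
  refine ⟨bd_of_jb (s p) (jb_time (fun y => hin_add p y _) t1) fun y v w => (hin_ap ..).symm,
    fun v => ?_, bd_of_jb (h := hin p - hin p') ((s p).sub (s p'))
      (jb_time (fun y => by rw [Pi.sub_apply, Pi.sub_apply, hin_add, hin_add]) t2) fun y v w => by
        simp [hin_ap]⟩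
  obtain ⟨w, w1, w2⟩ := hc p _ ⟨mem_closedBall_iff_norm.2 hp, m⟩ v
  exact ⟨w, w1, by rwa [hin_add, hin_ap] at w2⟩

/-! ### Shifts -/

theorem sh_inv (c φ : ℝ) (x : R4) : sh c φ (sh (-c) (-φ) x) = x := by
  rw [sh_sh, add_neg_cancel, add_neg_cancel, sh_zero, id]

theorem rot_inv (φ : ℝ) (x : R4) : rot φ (rot (-φ) x) = x := by
  rw [rot_ap, rot_ap, sh_sh, add_zero, add_neg_cancel, sh_zero, id]

theorem pull_sh (c φ : ℝ) {D : Set R4} (o : IsOpen D) (hg : Met g D) :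
    Pull (sh c φ) (pb (sh c φ) g) (sh c φ ⁻¹' D) g D :=
  ⟨o.preimage (sh_cd c φ).continuous, o, hg, (sh_cd c φ).contDiffOn, fun _ h => h, fun y _ => by
    rw [(sh_fd c φ y).fderiv]
    exact Function.LeftInverse.injective (g := rot (-φ)) fun v => by
      simpa using rot_inv (-φ) v, fun _ _ _ _ => rfl⟩

theorem pb_gin (c φ M a : ℝ) : pb (sh c φ) (gin M a) = gin M a := by
  funext y v w
  rw [pb, (sh_fd c φ y).fderiv]
  exact (hin_ap (M, a) ..).symm.trans ((hin_sh ..).trans (hin_ap ..))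

theorem jb_sh (c φ : ℝ) : Jb m (fderiv ℝ (sh c φ)) x 2 := by
  rw [show fderiv ℝ (sh c φ) = fun _ => rot φ from funext fun y => (sh_fd c φ y).fderiv]
  exact (Jb.const _).mono le_rfl (rot_norm φ)

theorem jb_to {F : R4 → R4} {e φ : ℝ} (s : ContDiffAt ℝ ∞ F x) (h : Jb m (F - sh c φ) x e) :
    Jb m (sh (-c) (-φ) ∘ F - id) x (2 * e) := by
  refine ((Jb.clm (rot (-φ)) (s.sub (sh_cd c φ).contDiffAt) h).congr
    (.of_forall fun y => ?_)).mono le_rfl (mul_le_mul_of_nonneg_right (rot_norm _) h.nonneg)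
  have := sh_inv (-c) (-φ) y
  rw [neg_neg, neg_neg, sh_eq] at this
  simp only [Pi.sub_apply, Function.comp_apply, id, map_sub, sh_eq (-c)]
  rw [eq_sub_of_add_eq this]
  abel

theorem jb_from {F : R4 → R4} {e φ : ℝ} (s : ContDiffAt ℝ ∞ F x)
    (h : Jb m (sh (-c) (-φ) ∘ F - id) x e) : Jb m (F - sh c φ) x (2 * e) := by
  refine ((Jb.clm (rot φ) (((sh_cd _ _).contDiffAt.comp x s).sub contDiffAt_id) h).congr
    (.of_forall fun y => ?_)).mono le_rfl (mul_le_mul_of_nonneg_right (rot_norm _) h.nonneg)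
  have := sh_inv c φ (F y)
  rw [sh_eq] at this
  simp only [Pi.sub_apply, Function.comp_apply, id, map_sub, sh_eq c]
  rw [eq_sub_of_add_eq this]
  abel

/-! ### Chains with at most k links -/

def Ch (R : R4 → R4 → Prop) : ℕ → R4 → R4 → Prop
  | 0, x, y => x = y
  | k + 1, x, y => Ch R k x y ∨ ∃ z, Ch R k x z ∧ R z y

theorem Ch.refl (R : R4 → R4 → Prop) (x : R4) : ∀ k, Ch R k x x
  | 0 => rfl
  | k + 1 => Or.inl (Ch.refl R x k)

theorem Ch.trans {R : R4 → R4 → Prop} {k : ℕ} {x y : R4} (h : Ch R k x y) :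
    ∀ {k' z}, Ch R k' y z → Ch R (k + k') x z
  | 0, _, h' => h' ▸ h
  | _ + 1, _, .inl h' => .inl (h.trans h')
  | _ + 1, _, .inr ⟨u, h', r⟩ => .inr ⟨u, h.trans h', r⟩

theorem Ch.of {R : R4 → R4 → Prop} (z : ℕ → R4) : ∀ k, (∀ i < k, R (z i) (z (i + 1))) →
    Ch R k (z 0) (z k)
  | 0, _ => rfl
  | k + 1, h => .inr ⟨_, Ch.of z k fun i hi => h i (hi.trans k.lt_succ_self), h k k.lt_succ_self⟩

theorem Ch.back {R R' : R4 → R4 → Prop} {K : Set R4} (H : ∀ x y, R x y → y ∈ K → x ∈ K ∧ R' x y)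
    {x : R4} : ∀ {k y}, Ch R k x y → y ∈ K → x ∈ K ∧ Ch R' k x y
  | 0, _, h, hy => ⟨h ▸ hy, h⟩
  | _ + 1, _, .inl h, hy => ⟨(Ch.back H h hy).1, .inl (Ch.back H h hy).2⟩
  | _ + 1, _, .inr ⟨u, h, r⟩, hy => ⟨(Ch.back H h (H _ _ r hy).1).1,
      .inr ⟨u, (Ch.back H h (H _ _ r hy).1).2, (H _ _ r hy).2⟩⟩

theorem Ch.line {R : R4 → R4 → Prop} {y : ℝ × ℝ × ℝ} {T : ℝ}
    (H : ∀ t ≥ T, ∀ h ∈ Ioc (0 : ℝ) 1, R (t, y) (t + h, y)) :
    ∀ k : ℕ, ∀ h ∈ Icc (0 : ℝ) k, Ch R k (T, y) (T + h, y)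
  | 0, h, hh => by
    obtain rfl : h = 0 := le_antisymm (by simpa using hh.2) hh.1
    rw [add_zero]; rfl
  | k + 1, h, hh => by
    rcases le_or_gt h k with h1 | h1
    · exact .inl (Ch.line H k h ⟨hh.1, h1⟩)
    · refine .inr ⟨_, Ch.line H k k ⟨k.cast_nonneg, le_rfl⟩, ?_⟩
      have := H (T + k) (le_add_of_nonneg_right k.cast_nonneg) (h - k)
        ⟨sub_pos.2 h1, by have := hh.2; push_cast at this; linarith⟩
      rwa [add_assoc, add_sub_cancel] at this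

end Vale.Agent.P354LA
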