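import Vale.Agent.P354LA.Step

/-!
SPINE.
-/

set_option linter.all false
set_option maxSynthPendingDepth 3

open scoped ContDiff
open Set Filter Topology Metric

noncomputable section

namespace Vale.Agent.P354LA

open Vale.Agent.P354n (R4)
open Vale.Agent.P354R (Met Pull)
open Vale.Agent.P354RC (k2 at_fd at_df)
open Vale.Agent.P354XE (Tw Bd pb gin rd)
open Vale.Agent.P354XA (rd_sq rd_nonneg ip)
open Vale.Agent.P354XM
open Vale.Agent.P354YJ (gin_met gin_met' open_rd)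
open Vale.Agent.P354YM (ARG PATH y0 Pc Pk)
open Vale.Agent.P354YR (XI)
open Vale.Agent.P354LF

theorem rd_y0 {M : ℝ} (hM : 0 < M) {p : R4} (h : p.2 = y0 M) : rd p = 3 * M := by
  refine (pow_left_inj₀ (rd_nonneg _) (by positivity) two_ne_zero).1 ?_
  rw [rd_sq, ip, h, y0]
  ring

theorem base {M a : ℝ} (h : |a| < M) : Base a (y0 M) := by
  have hM : 0 < M := (abs_nonneg a).trans_lt h
  have k : a ^ 2 < M ^ 2 := sq_lt_sq' (abs_lt.1 h).1 (abs_lt.1 h).2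
  refine ⟨by simp only [y0]; positivity, rfl, by simp only [y0]; positivity, ne_of_lt ?_⟩
  simp only [y0]
  nlinarith [mul_pos (pow_pos hM 2) (pow_pos hM 2), mul_lt_mul_of_pos_right k (pow_pos hM 2)]

theorem reset {M a r0 s : ℝ} (r1 : ℝ) (ha : a ≠ 0) (h : |a| < M) (h2 : r0 ≤ 2 * M) (hs : 0 ≤ s) :
    ∃ C ≥ 1, ∃ δ > 0, ∀ c L t ε N p1 p2 K DE D' β ψ ι G,
      Sp M a r1 r0 s c L t ε N p1 p2 K DE D' β ψ ι G → 3 ≤ N → 0 ≤ ε → ε ≤ δ → ∀ T c' φ ν, t ≤ T →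
      (T, y0 M) ∈ K → 2 * (|c'| + 1) ≤ T → ν ≤ δ → St DE β ι 4 c' φ (T, y0 M) ν →
      ‖p2 - p1‖ ≤ C * (ε * (1 + T / 2) ^ (-s)) ∧ ∃ c'' φ', |c'' - c'| ≤ C * ν ∧
        St DE β ι 1 c'' φ' (T, y0 M) (C * (ε * (1 + T / 2) ^ (-s))) := by
  have hM : 0 < M := (abs_nonneg a).trans_lt h
  obtain ⟨C, δ, C0, δ0, H⟩ := krig M a M 0 (y0 M) 3 hM.ne' ha hM (base h) le_rfl
  obtain ⟨CP, CP0, hP⟩ := pb_bd 3 3
  refine ⟨(C + 1) * (CP + 1), by nlinarith, min (δ / (CP + 1)) (min (1 / 2) (M / 4)), by positivity,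
    fun c L t ε N p1 p2 K DE D' β ψ ι G S N3 e0 e1 T c' φ ν tT hK hc νδ st => ?_⟩
  rw [le_min_iff, le_min_iff, le_div_iff₀ (by positivity)] at e1 νδ
  have ν0 := st.2.nonneg
  have T0 : 0 ≤ T := by linarith [abs_nonneg c']
  have r3 : rd (T, y0 M) = 3 * M := rd_y0 hM rfl
  have hx : (T, y0 M) ∈ K ∩ Nz M r0 T := ⟨hK, le_rfl, by linarith, by linarith⟩
  have hx' : (T, y0 M) ∈ K ∩ Nz M r0 t := ⟨hK, nz_mono tT hx.2⟩
  obtain ⟨Ob, ob, sF, hOb⟩ := sp_ob S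
  have xo := (hOb _ hx').2 st.1
  have sx := sF.contDiffAt (ob.mem_nhds xo)
  have cl := S.cl _ hx' st.1
  have d := (jb_to sx st.2).zero
  have e : sh c' φ ((sh (-c') (-φ) ∘ ι ∘ β) (T, y0 M)) = ι (β (T, y0 M)) := sh_inv ..
  have tg := sp_tg S hs e0 hx tT st.1 hc e d (by linarith) (by linarith)
  have pos : 0 < rd (ι (β (T, y0 M))) := by
    rw [← e, rd_sh]
    have : ‖(sh (-c') (-φ) ∘ ι ∘ β) (T, y0 M) - (T, y0 M)‖ ≤ 2 * ν := d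
    linarith [(abs_le.1 (rd_lip ((sh (-c') (-φ) ∘ ι ∘ β) (T, y0 M)) (T, y0 M))).1]
  have w1 : (1 + T / 2) ^ (-s) ≤ 1 := Real.rpow_le_one_of_one_le_of_nonpos (by linarith) (by linarith)
  have w0 : 0 ≤ ε * (1 + T / 2) ^ (-s) := by positivity
  have w2 : ε * (1 + T / 2) ^ (-s) ≤ ε := mul_le_of_le_one_right e0 w1
  have b0 := bd_mono cl.2.1 N3 (wt hs e0 T0 (x := T) (by linarith))
  generalize ε * (1 + T / 2) ^ (-s) = η at *
  have ss := sx.sub (sh_cd c' φ).contDiffAt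
  have j : Jb 3 (fderiv ℝ (ι ∘ β)) (T, y0 M) 3 :=
    ((Jb.add (at_fd ss) (at_fd (sh_cd c' φ).contDiffAt) st.2.fd (jb_sh c' φ)).congr (by
      filter_upwards [fd_sub sx (sh_cd c' φ).contDiffAt] with y hy
      exact (eq_add_of_sub_eq hy.symm))).mono le_rfl (by linarith)
  have b1 := hP (ι ∘ β) (gin p2.1 p2.2) G (D' ∩ {p | 0 < rd p}) _ η sx j (S.met.1.inter open_rd)
    (gin_met' _ _ fun _ h => h.2) (met_mono S.met.2 inter_subset_left) ⟨cl.1, pos⟩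
    (bd_neg (bd_mono tg N3 le_rfl))
  have s1 := pb_sm S.met.1 S.met.2 sx cl.1
  have b2 := bd_add (f := pb (ι ∘ β) (gin p2.1 p2.2) - pb (ι ∘ β) G)
    (g := pb (ι ∘ β) G - gin p1.1 p1.2)
    (fun v w => (pb_sm open_rd (gin_met _ _) sx pos v w).sub (s1 v w))
    (fun v w => (s1 v w).sub (met_at open_rd (gin_met _ _) (show 0 < rd _ by linarith) v w)) b1 b0
  rw [sub_add_sub_cancel] at b2
  have eδ : ε ≤ δ := by nlinarith
  have f := fun p : ℝ × ℝ => (norm_fst_le (p - (M, a)))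
  have g := fun p : ℝ × ℝ => (norm_snd_le (p - (M, a)))
  obtain ⟨k1, k2, c'', φ', k3, -, k4⟩ := H p1.1 p1.2 p2.1 p2.2 T c' φ (CP * η + η) ν {(T, y0 M)} Ob (ι ∘ β)
    ((f p1).trans (S.par.1.trans eδ)) ((g p1).trans (S.par.1.trans eδ))
    ((f p2).trans (S.par.2.trans eδ)) ((g p2).trans (S.par.2.trans eδ)) (by nlinarith)
    (by nlinarith) ob (singleton_subset_iff.2 xo) sF rfl
    (fun x hx => ⟨fun _ => x, fun _ => 0, hx, rfl, fun _ _ => ⟨hx, hasDerivAt_const _ _, by simp⟩⟩)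
    (fun x hx => by obtain rfl : x = _ := hx; exact ⟨by linarith, bd_mono b2 le_rfl le_rfl⟩)
    (st.2.mono (by omega) le_rfl)
  have q : C * (CP * η + η) ≤ (C + 1) * (CP + 1) * η := by nlinarith [mul_nonneg CP0 w0]
  exact ⟨(max_le k1 k2).trans q, c'', φ', k3.trans
    (by nlinarith [mul_nonneg CP0 ν0, mul_nonneg C0.le (mul_nonneg CP0 ν0)]), st.1,
    (k4 _ rfl).mono (by omega) q⟩

theorem pc_mono {g : Tw} {X : R4 → R4} {c L : ℝ} {S S' : Set R4} {x y : R4} (h : Pc g X c L S x y)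
    (s : S ⊆ S') : Pc g X c L S' x y :=
  let ⟨γ, ⟨a, b, k⟩, l⟩ := h
  ⟨γ, ⟨a, b, fun u hu => ⟨s (k u hu).1, (k u hu).2⟩⟩, l⟩

theorem spine (arg : ARG) (path : PATH) : SPINE := by
  intro M a r1 r0 s Lb n ha h hr h10 h2 hs
  have hM : 0 < M := (abs_nonneg a).trans_lt h
  have h1 : 0 < r1 := (sub_nonneg.2 (Real.sqrt_le_iff.2
    ⟨hM.le, sub_le_self _ (sq_nonneg a)⟩)).trans_lt hr
  obtain ⟨c, c0, L, L1, k, P1, P2⟩ := path M a r0 (4 * M) h (hr.trans h10) h2 (by linarith)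
  obtain ⟨CS, CS1, δS, δS0, HS⟩ := chain arg a (N := n + 3) (L := L)
    (1 + (⌈2 * |Lb| + L + 1⌉₊ + k)) h1 h10 hM hs (by omega) (by linarith)
  obtain ⟨CR, CR1, δR, δR0, HR⟩ := reset r1 ha h h2 hs
  obtain ⟨δ0, d0, d1, d2, d3, d4⟩ : ∃ δ0 > 0, 2 * δ0 ≤ δS ∧ CS * (3 * δ0) ≤ δR ∧
      CR * (CS * (3 * δ0)) ≤ 1 / 4 ∧ δ0 ≤ 1 := by
    have : ∀ᶠ δ in 𝓝[>] (0 : ℝ), 0 < δ ∧ 2 * δ < δS ∧ CS * (3 * δ) < δR ∧
        CR * (CS * (3 * δ)) < 1 / 4 ∧ δ < 1 :=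
      eventually_mem_nhdsWithin.and (nhdsWithin_le_nhds ((ContinuousAt.eventually_lt
        (by fun_prop) continuousAt_const (by simpa using δS0)).and ((ContinuousAt.eventually_lt
        (by fun_prop) continuousAt_const (by simpa using δR0)).and ((ContinuousAt.eventually_lt
        (by fun_prop) continuousAt_const (by simp)).and (ContinuousAt.eventually_lt
        (by fun_prop) continuousAt_const (by simp))))))
    obtain ⟨δ, k1, k2, k3, k4, k5⟩ := this.exists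
    exact ⟨δ, k1, k2.le, k3.le, k4.le, k5.le⟩
  have aL := abs_nonneg Lb
  refine ⟨c, c0, L, 4, fun t t4 => ⟨t + |Lb| + L, 2 * CS * CR * (2 + |Lb| + L) ^ s, δ0 / CR,
    by positivity, fun ε hε p1 p2 K DE D' β ψ ι G S ini t0 ht0 => ?_⟩⟩
  have e0 := hε.1.le
  have e1 : ε * CR ≤ δ0 := (le_div_iff₀ (by linarith)).1 hε.2
  have e2 : ε ≤ δ0 := by nlinarith
  have e3 : δ0 / CR ≤ δ0 := div_le_self d0.le CR1
  have w : ∀ T ≥ t, 0 ≤ ε * (1 + T / 2) ^ (-s) ∧ ε * (1 + T / 2) ^ (-s) ≤ ε := fun T hT =>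
    ⟨mul_nonneg e0 (Real.rpow_nonneg (by linarith) _), mul_le_of_le_one_right e0
      (Real.rpow_le_one_of_one_le_of_nonpos (by linarith) (by linarith))⟩
  have hp : ‖p2 - p1‖ ≤ 2 * ε := by
    linarith [norm_sub_le_norm_sub_add_norm_sub p2 (M, a) p1, norm_sub_rev (M, a) p1, S.par.1,
      S.par.2]
  have nz : ∀ T T', T ≤ T' → (T', y0 M) ∈ Nz M r0 T := fun T T' k =>
    ⟨k, by linarith [rd_y0 hM (p := (T', y0 M)) rfl], by linarith [rd_y0 hM (p := (T', y0 M)) rfl]⟩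
  have ln : ∀ T, ∀ τ ≥ T, ∀ h ∈ Ioc (0 : ℝ) 1,
      Pc (gin M a) (XI M a) c L (Nz M r0 T) (τ, y0 M) (τ + h, y0 M) := fun T τ hτ h hh =>
    pc_mono (P1 τ h hh) fun p hp => by
      obtain ⟨u, y⟩ := p
      obtain rfl : y = y0 M := hp.1
      exact nz _ _ (hτ.trans hp.2.1)
  have bk : ∀ T ≥ t, ∀ x y, Pc (gin M a) (XI M a) c L (Nz M r0 T) x y → y ∈ K →
      x ∈ K ∧ Lk (K ∩ Nz M r0 T) L x y := fun T hT x y ⟨γ, cu, l⟩ hy => by
    have := S.past x y γ hy ⟨cu.1, cu.2.1, fun u hu =>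
      ⟨nz_mono hT (cu.2.2 u hu).1, (cu.2.2 u hu).2⟩⟩ l
    exact ⟨cu.1 ▸ this 0 ⟨le_rfl, zero_le_one⟩, γ, cu.1, cu.2.1, fun u hu =>
      ⟨⟨this u hu, (cu.2.2 u hu).1⟩, (cu.2.2 u hu).2.1, (l u hu).1⟩⟩
  have hop : ∀ τ ≥ t, ∀ τ' ≥ τ, ∀ c' φ, 2 * (|c'| + 1) ≤ τ → (τ', y0 M) ∈ K →
      Ch (Lk (K ∩ Nz M r0 τ) L) 1 (τ, y0 M) (τ', y0 M) → St DE β ι 1 c' φ (τ, y0 M) δ0 →
      ‖p2 - p1‖ ≤ CR * (ε * (1 + τ' / 2) ^ (-s)) ∧ ∃ c'' φ', |c'' - c'| ≤ 1 / 4 ∧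
        St DE β ι 1 c'' φ' (τ', y0 M) (CR * (ε * (1 + τ' / 2) ^ (-s))) :=
      fun τ hτ τ' hτ' c' φ hc hK ch st => by
    have a1 := HS c L t ε p1 p2 K DE D' β ψ ι G S e0 (by linarith) τ c' φ (2 * ε) hτ hc
      (by linarith [(w τ hτ).2]) hp (by linarith) _ _ δ0 (by linarith)
      (ch.trans (Ch.refl _ _ _)) ⟨hK, nz _ _ hτ'⟩ st
    have q : CS * (2 * ε + δ0) ≤ CS * (3 * δ0) := by nlinarith
    obtain ⟨k1, c'', φ', k2, k3⟩ := HR c L t ε _ p1 p2 K DE D' β ψ ι G S (by omega) e0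
      (by nlinarith) τ' c' φ (CS * (3 * δ0)) (hτ.trans hτ') hK (hc.trans hτ') d2
      ⟨a1.1, a1.2.mono (by omega) q⟩
    exact ⟨k1, c'', φ', k2.trans d3, k3⟩
  have sm : ∀ T ≥ t, CR * (ε * (1 + T / 2) ^ (-s)) ≤ δ0 := fun T hT => by
    nlinarith [(w T hT).2]
  have ind : ∀ j : ℕ, (t + j, y0 M) ∈ K → ‖p2 - p1‖ ≤ CR * (ε * (1 + (t + j) / 2) ^ (-s)) ∧
      ∃ c' φ : ℝ, |c'| ≤ (j + 1) / 4 ∧
        St DE β ι 1 c' φ (t + j, y0 M) (CR * (ε * (1 + (t + j) / 2) ^ (-s))) := fun j => by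
    induction j with
    | zero =>
      simp only [Nat.cast_zero, add_zero, zero_add]
      intro hK
      obtain ⟨k1, c', φ, k2, k3⟩ := hop t le_rfl t le_rfl 0 0 (by rw [abs_zero]; linarith) hK
        (Ch.refl _ _ _) ⟨(ini hK).1, by rw [sh_zero]; exact Jb.mono (ini hK).2 le_rfl e3⟩
      exact ⟨k1, c', φ, by rwa [sub_zero] at k2, k3⟩
    | succ j ih =>
      rw [Nat.cast_succ, ← add_assoc]
      intro hK
      have j0 : (0 : ℝ) ≤ j := j.cast_nonneg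
      have tj : t + j ≥ t := by linarith
      obtain ⟨m, l⟩ := bk _ tj _ _ (ln _ _ le_rfl 1 ⟨one_pos, le_rfl⟩) hK
      obtain ⟨-, c', φ, k2, k3⟩ := ih m
      obtain ⟨k1, c'', φ', k4, k5⟩ := hop _ tj _ (by linarith) c' φ (by linarith) hK
        (.inr ⟨_, rfl, l⟩) ⟨k3.1, k3.2.mono le_rfl (sm _ tj)⟩
      exact ⟨k1, c'', φ', by linarith [abs_sub_abs_le_abs_sub c'' c'], k5⟩
  have f1 := Nat.floor_le (show 0 ≤ t0 - |Lb| - L - t by linarith)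
  have f2 := Nat.lt_floor_add_one (t0 - |Lb| - L - t)
  generalize ⌊t0 - |Lb| - L - t⌋₊ = j at f1 f2
  have j0 : (0 : ℝ) ≤ j := j.cast_nonneg
  have tj : t + j ≥ t := by linarith
  have key : ∀ p ∈ K, |p.1 - t0| ≤ Lb → r0 ≤ rd p → rd p ≤ 4 * M → p ∈ Nz M r0 (t + j) ∧
      (t + j, y0 M) ∈ K ∧ Ch (Lk (K ∩ Nz M r0 (t + j)) L) (1 + (⌈2 * |Lb| + L + 1⌉₊ + k))
        (t + j, y0 M) p := fun p hK b r r' => by
    have b' := abs_le.1 (b.trans (le_abs_self _))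
    obtain ⟨l, hl, z, z0, zk, hz⟩ := P2 p r r'
    have c1 := Ch.line (ln (t + j)) ⌈2 * |Lb| + L + 1⌉₊ (p.1 - l - (t + j))
      ⟨by linarith [hl.2], le_trans (by linarith [hl.1]) (Nat.le_ceil _)⟩
    have c2 := Ch.of z k fun i hi => pc_mono (S' := Nz M r0 (t + j)) (hz i hi) fun x hx =>
      ⟨by linarith [hx.2.2.1], hx.1, hx.2.1⟩
    rw [z0, zk] at c2
    rw [add_sub_cancel] at c1
    exact ⟨⟨by linarith, r, r'⟩, Ch.back (bk _ tj) ((Ch.refl _ _ 1).trans (c1.trans c2)) hK⟩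
  by_cases hT : (t + j, y0 M) ∈ K
  swap
  · exact ⟨0, 0, fun p hK b r r' => absurd (key p hK b r r').2.1 hT⟩
  obtain ⟨k1, c', φ, k2, k3⟩ := ind j hT
  have ra : (1 + (t + j) / 2) ^ (-s) ≤ (2 + |Lb| + L) ^ s * (1 + t0) ^ (-s) := by
    have A : 0 < 2 + |Lb| + L := by linarith
    have := Real.rpow_le_rpow_of_nonpos (x := 1 + t0) (y := (2 + |Lb| + L) * (1 + (t + j) / 2))
      (z := -s) (by linarith) (by nlinarith) (by linarith)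
    rw [Real.mul_rpow A.le (by linarith), Real.rpow_neg A.le,
      inv_mul_le_iff₀ (Real.rpow_pos_of_pos A _)] at this
    exact this
  have q : CS * (CR * (ε * (1 + (t + j) / 2) ^ (-s)) + CR * (ε * (1 + (t + j) / 2) ^ (-s))) ≤
      2 * CS * CR * (2 + |Lb| + L) ^ s * ε * (1 + t0) ^ (-s) :=
    (by ring : _ = 2 * CS * CR * ε * (1 + (t + j) / 2) ^ (-s)).trans_le
      ((mul_le_mul_of_nonneg_left ra (by positivity)).trans_eq (by ring))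
  have w' := w _ tj
  refine ⟨c', φ, fun p hK b r r' => ?_⟩
  obtain ⟨m1, -, m2⟩ := key p hK b r r'
  have a1 := HS c L t ε p1 p2 K DE D' β ψ ι G S e0 (by linarith) _ c' φ _ tj (by linarith)
    (by nlinarith) k1 (by linarith [sm _ tj]) _ _ _ (by linarith [sm _ tj]) m2 ⟨hK, m1⟩ k3
  exact ⟨k1.trans (le_trans (by nlinarith [mul_nonneg (by linarith : 0 ≤ CR) w'.1]) q), a1.1,
    a1.2.mono (by omega) q⟩

theorem spine' (path : PATH) : SPINE := spine arg path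

end Vale.Agent.P354LA
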