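import Vale.Agent.P354LA.Gen

/-!
SPINE: the propagation along one curve and along chains, and the reset at the spine.
-/

set_option linter.all false
set_option maxSynthPendingDepth 3

open scoped ContDiff
open Set Filter Topology Metric

noncomputable section

namespace Vale.Agent.P354LA

open Vale.Agent.P354n (R4)
open Vale.Agent.P354R (Met Pull)
open Vale.Agent.P354RC (k2 at_fd at_df)
open Vale.Agent.P354XE (Tw Bd pb gin rd)
open Vale.Agent.P354XM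
open Vale.Agent.P354YJ (gin_met gin_met' open_rd)
open Vale.Agent.P354YM (ARG y0)
open Vale.Agent.P354LF

/-- The state at x: the map makes sense and is close to a shift. -/
def St (DE : Set R4) (β ι : R4 → R4) (m : ℕ) (c φ : ℝ) (x : R4) (e : ℝ) : Prop :=
  β x ∈ DE ∧ Jb m (ι ∘ β - sh c φ) x e

/-- A link in S. -/
def Lk (S : Set R4) (L : ℝ) (x y : R4) : Prop :=
  ∃ γ : ℝ → R4, γ 0 = x ∧ γ 1 = y ∧
    ∀ u ∈ Icc (0 : ℝ) 1, γ u ∈ S ∧ DifferentiableAt ℝ γ u ∧ ‖deriv γ u‖ ≤ L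

theorem wt {s ε T x : ℝ} (hs : 0 ≤ s) (h : 0 ≤ ε) (hT : 0 ≤ T) (hx : T / 2 ≤ x) :
    ε * (1 + |x|) ^ (-s) ≤ ε * (1 + T / 2) ^ (-s) :=
  mul_le_mul_of_nonneg_left (Real.rpow_le_rpow_of_nonpos (by positivity)
    (by linarith [le_abs_self x]) (by linarith)) h

theorem nz_mono {M r0 t T : ℝ} (h : t ≤ T) : Nz M r0 T ⊆ Nz M r0 t :=
  fun _ hx => ⟨h.trans hx.1, hx.2⟩

section
variable {M a r1 r0 s c L t ε : ℝ} {N : ℕ} {p1 p2 : ℝ × ℝ} {K DE D' : Set R4} {β ψ ι : R4 → R4}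
  {G : Tw}

theorem sp_ob (S : Sp M a r1 r0 s c L t ε N p1 p2 K DE D' β ψ ι G) : ∃ Ob, IsOpen Ob ∧
    ContDiffOn ℝ ∞ (ι ∘ β) Ob ∧ ∀ x ∈ K ∩ Nz M r0 t, ContinuousAt β x ∧ (β x ∈ DE → x ∈ Ob) := by
  obtain ⟨O, o, sO, sb⟩ := S.sm
  exact ⟨O ∩ β ⁻¹' DE, sb.continuousOn.isOpen_inter_preimage o S.opn.1,
    S.opn.2.comp (sb.mono inter_subset_left) fun _ h => h.2, fun x hx =>
      ⟨sb.continuousOn.continuousAt (o.mem_nhds (sO hx)), fun h => ⟨sO hx, h⟩⟩⟩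

/-- The target metric at the image of a point. -/
theorem sp_tg (S : Sp M a r1 r0 s c L t ε N p1 p2 K DE D' β ψ ι G) (hs : 0 ≤ s) (e0 : 0 ≤ ε)
    {T c' φ ρ : ℝ} {x y : R4} (hx : x ∈ K ∩ Nz M r0 T) (tT : t ≤ T) (hb : β x ∈ DE)
    (hc : 2 * (|c'| + 1) ≤ T) (e : sh c' φ y = ι (β x)) (d : ‖y - x‖ ≤ ρ) (ρ1 : ρ ≤ 1)
    (ρ2 : ρ ≤ M / 2) :
    Bd N (G - gin p2.1 p2.2) (ι (β x)) (ε * (1 + T / 2) ^ (-s)) := by
  have a1 : |y.1 - x.1| ≤ ρ := (norm_fst_le (y - x)).trans d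
  have a2 : (ι (β x)).1 = y.1 + c' := by rw [← e]; rfl
  have a3 : T / 2 ≤ (ι (β x)).1 := by
    have := hx.2.1
    linarith [(abs_le.1 a1).1, neg_abs_le c']
  have T0 : 0 ≤ T := by linarith [abs_nonneg c']
  refine bd_mono ((S.cl x ⟨hx.1, nz_mono tT hx.2⟩ hb).2.2 (by linarith) ?_) le_rfl (wt hs e0 T0 a3)
  rw [← e, rd_sh]
  linarith [(abs_le.1 (rd_lip y x)).2, hx.2.2.2]

end

theorem step (arg : ARG) {M r1 r0 s : ℝ} (a L : ℝ) {N : ℕ} (h1 : 0 < r1) (h0 : r1 < r0)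
    (hM : 0 < M) (hs : 0 ≤ s) (hN : 1 ≤ N) : ∃ C ≥ 1, ∃ δ > 0,
    ∀ c L' t ε p1 p2 K DE D' β ψ ι G, Sp M a r1 r0 s c L' t ε N p1 p2 K DE D' β ψ ι G → 0 ≤ ε →
      ε ≤ 1 → ∀ T c' φ η, t ≤ T → 2 * (|c'| + 1) ≤ T → ε * (1 + T / 2) ^ (-s) ≤ η →
      ‖p2 - p1‖ ≤ η → η ≤ δ → ∀ x y ν, ν ≤ δ → Lk (K ∩ Nz M r0 T) L x y →
        St DE β ι 1 c' φ x ν → St DE β ι (N + 1) c' φ y (C * (η + ν)) := by
  obtain ⟨ρ, ρ0, ρ1, ρ2, ρ3⟩ : ∃ ρ > 0, ρ ≤ 1 ∧ ρ ≤ M / 2 ∧ 5 * ρ ≤ r0 - r1 :=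
    ⟨min 1 (min (M / 2) ((r0 - r1) / 5)), by have := sub_pos.2 h0; positivity, min_le_left _ _,
      (min_le_right _ _).trans (min_le_left _ _),
      by linarith [(min_le_right 1 _).trans (min_le_right (M / 2) ((r0 - r1) / 5))]⟩
  obtain ⟨B, B0, c0, c1, hB⟩ := kerr_bd (M, a) h1 (5 * M) (N + 1)
  obtain ⟨CA, δA, δ0, hA⟩ := arg N L B c0 ρ hN c1 ρ0
  obtain ⟨CP, CP0, hP⟩ := pb_bd N 2
  obtain ⟨D, hD⟩ : ∃ D, D = 2 + CP + B := ⟨_, rfl⟩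
  have D2 : 2 ≤ D := by linarith
  obtain ⟨δ, δ1, δ2, δ3⟩ : ∃ δ > 0, D * δ ≤ δA ∧ |CA| * (2 * D * δ) ≤ ρ := by
    have : ∀ᶠ δ in 𝓝[>] (0 : ℝ), 0 < δ ∧ D * δ < δA ∧ |CA| * (2 * D * δ) < ρ :=
      eventually_mem_nhdsWithin.and (nhdsWithin_le_nhds ((ContinuousAt.eventually_lt
        (by fun_prop) continuousAt_const (by simpa using δ0)).and (ContinuousAt.eventually_lt
        (by fun_prop) continuousAt_const (by simpa using ρ0))))
    obtain ⟨δ, k1, k2, k3⟩ := this.exists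
    exact ⟨δ, k1, k2.le, k3.le⟩
  refine ⟨2 * |CA| * D + 1, by have := abs_nonneg CA; nlinarith, δ, δ1,
    fun c L' t ε p1 p2 K DE D' β ψ ι G S e0 e1 T c' φ η tT hc hη hp ηδ x y ν νδ l st => ?_⟩
  obtain ⟨γ, rfl, rfl, hγ⟩ := l
  obtain ⟨Ob, ob, sF, hOb⟩ := sp_ob S
  have η0 : 0 ≤ η := (norm_nonneg _).trans hp
  have ν0 := st.2.nonneg
  have T0 : 0 ≤ T := by linarith [abs_nonneg c']
  have nz : ∀ u ∈ Icc (0 : ℝ) 1, γ u ∈ K ∩ Nz M r0 t := fun u hu =>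
    ⟨(hγ u hu).1.1, nz_mono tT (hγ u hu).1.2⟩
  have sa : ∀ u ∈ Icc (0 : ℝ) 1, β (γ u) ∈ DE → ContDiffAt ℝ ∞ (ι ∘ β) (γ u) := fun u hu h =>
    sF.contDiffAt (ob.mem_nhds ((hOb _ (nz u hu)).2 h))
  have q1 := S.par.1.trans e1
  have q2 := S.par.2.trans e1
  have pl := pull_sh c' φ S.met.1 S.met.2
  have A : ∀ u ∈ Icc (0 : ℝ) 1, (∀ v ∈ Icc 0 u, β (γ v) ∈ DE) →
      Jb (N + 1) (sh (-c') (-φ) ∘ ι ∘ β - id) (γ u) (|CA| * (D * (η + ν))) := fun u hu hv => by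
    have := hA (gin p1.1 p1.2) (pb (sh c' φ) G) _ (sh c' φ ⁻¹' D') Ob (sh (-c') (-φ) ∘ ι ∘ β)
      (fun v => γ (u * v)) (D * η) (D * ν) open_rd (gin_met _ _) pl.1 (k2.1 _ _ _ _ _ pl) ob
      ((sh_cd _ _).comp_contDiffOn sF) (by nlinarith) (by nlinarith) (fun v hv' => ?_)
      (by
        rw [mul_zero]
        exact (jb_to (sa 0 ⟨le_rfl, zero_le_one⟩ st.1) st.2).mono le_rfl (by nlinarith))
      1 ⟨zero_le_one, le_rfl⟩
    · rw [mul_one] at this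
      exact Jb.mono this le_rfl (by
        rw [← mul_add]; exact mul_le_mul_of_nonneg_right (le_abs_self _) (by positivity))
    have m1 : u * v ∈ Icc 0 u := ⟨mul_nonneg hu.1 hv'.1, mul_le_of_le_one_right hu.1 hv'.2⟩
    have m2 : u * v ∈ Icc (0 : ℝ) 1 := ⟨m1.1, m1.2.trans hu.2⟩
    obtain ⟨hx, df, sp⟩ := hγ _ m2
    have dv : HasDerivAt (fun v => γ (u * v)) (u • deriv γ (u * v)) v := by
      have := df.hasDerivAt.scomp v ((hasDerivAt_id v).const_mul u)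
      rw [mul_one] at this
      exact this
    have hb := hv _ m1
    have cl := S.cl _ (nz _ m2) hb
    have sx := sa _ m2 hb
    have ob' := (hOb _ (nz _ m2)).2 hb
    refine ⟨dv.differentiableAt, ?_, ob', ?_, ?_⟩
    · rw [dv.deriv, norm_smul, Real.norm_of_nonneg hu.1]
      exact (mul_le_of_le_one_left (norm_nonneg _) hu.2).trans sp
    · exact mem_preimage.2 ((sh_inv c' φ _).symm ▸ cl.1)
    generalize γ (u * v) = x at *
    have r : ∀ y, ‖y - x‖ ≤ ρ → r1 ≤ rd y ∧ rd y ≤ 5 * M := fun y hy => by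
      have := abs_le.1 (rd_lip y x)
      constructor <;> linarith [hx.2.2.1, hx.2.2.2]
    refine ⟨fun y hy => ⟨h1.trans_le (r y hy).1, (hB p1 p1 y q1 q1 (r y hy).1 (r y hy).2).1,
      (hB p1 p1 y q1 q1 (r y hy).1 (r y hy).2).2.1⟩, ?_, fun hy => ?_⟩
    · refine bd_mono (bd_congr cl.2.1 ?_) le_rfl
        (((wt hs e0 T0 (by linarith [hx.2.1])).trans hη).trans (by nlinarith))
      filter_upwards [ev_df sx] with y hy v w
      simp only [Pi.sub_apply, pb, ((sh_fd _ _ _).comp y hy.hasFDerivAt).fderiv,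
        (sh_fd c' φ _).fderiv, ContinuousLinearMap.comp_apply, rot_inv]
      rw [Function.comp_apply (f := sh (-c') (-φ)), sh_inv]
    · have e : sh c' φ ((sh (-c') (-φ) ∘ ι ∘ β) x) = ι (β x) := sh_inv ..
      have tg := sp_tg S hs e0 hx tT hb hc e hy ρ1 ρ2
      have ry := r _ hy
      generalize (sh (-c') (-φ) ∘ ι ∘ β) x = y at *
      have pos : 0 < rd y := h1.trans_le ry.1
      have b1 := hP (sh c' φ) G (gin p2.1 p2.2) (D' ∩ {p | 0 < rd p}) y η (sh_cd _ _).contDiffAt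
        (jb_sh _ _) (S.met.1.inter open_rd) (met_mono S.met.2 inter_subset_left)
        (gin_met' _ _ fun _ h => h.2) ⟨e ▸ cl.1, pos.trans_eq (rd_sh ..).symm⟩
        (e ▸ bd_mono tg le_rfl hη)
      rw [pb_gin] at b1
      have sg := fun p : ℝ × ℝ => met_at open_rd (gin_met p.1 p.2) pos
      have b2 := bd_add (f := pb (sh c' φ) G - gin p2.1 p2.2) (g := gin p2.1 p2.2 - gin p1.1 p1.2)
        (fun v w => (pb_sm S.met.1 S.met.2 (sh_cd c' φ).contDiffAt (e ▸ cl.1)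
        v w).sub (sg p2 v w)) (fun v w => (sg p2 v w).sub (sg p1 v w)) b1
        (bd_mono (hB p2 p1 y q2 q1 ry.1 ry.2).2.2 N.le_succ (mul_le_mul_of_nonneg_left hp B0))
      rw [sub_add_sub_cancel] at b2
      exact bd_mono b2 le_rfl (by nlinarith)
  have ct : ∀ u ∈ Icc (0 : ℝ) 1, ContinuousAt (β ∘ γ) u := fun u hu =>
    (hOb _ (nz u hu)).1.comp (hγ u hu).2.1.continuousAt
  have all : ∀ u ∈ Icc (0 : ℝ) 1, β (γ u) ∈ DE := by
    by_contra hb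
    push Not at hb
    obtain ⟨u0, ⟨hu, bad⟩, hm⟩ := (isCompact_Icc.of_isClosed_subset
      (ContinuousOn.preimage_isClosed_of_isClosed (fun u hu => (ct u hu).continuousWithinAt)
        isClosed_Icc S.opn.1.isClosed_compl) inter_subset_left).exists_isMinOn hb continuousOn_id
    have pos : 0 < u0 := hu.1.lt_of_ne fun e => bad (by rw [← e]; exact st.1)
    have r : ∀ y ∈ closedBall (γ u0) (2 * ρ), r1 < rd (sh c' φ y) := fun y hy => by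
      rw [rd_sh]
      linarith [(abs_le.1 (rd_lip y (γ u0))).1, mem_closedBall_iff_norm.1 hy, (hγ _ hu).1.2.2.1]
    have Z := (isCompact_closedBall (γ u0) (2 * ρ)).image_of_continuousOn
      (S.psi.1.comp (sh_cd c' φ).continuous.continuousOn r)
    obtain ⟨y, hy, e⟩ := Z.isClosed.mem_of_tendsto (b := 𝓝[<] u0)
      ((ct _ hu).tendsto.mono_left nhdsWithin_le_nhds) (by
        filter_upwards [Ioo_mem_nhdsLT pos, nhdsWithin_le_nhds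
          ((hγ _ hu).2.1.continuousAt.eventually (closedBall_mem_nhds _ ρ0))] with u h1 h2
        have gd : ∀ v ∈ Icc 0 u, β (γ v) ∈ DE := fun v hv => by
          by_contra k
          exact (hv.2.trans_lt h1.2).not_ge (hm ⟨⟨hv.1, hv.2.trans (h1.2.le.trans hu.2)⟩, k⟩)
        have := (A u ⟨h1.1.le, h1.2.le.trans hu.2⟩ gd).zero
        refine ⟨(sh (-c') (-φ) ∘ ι ∘ β) (γ u), ?_, ?_⟩
        · rw [dist_eq_norm] at h2
          rw [mem_closedBall_iff_norm]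
          refine (norm_sub_le_norm_sub_add_norm_sub _ (γ u) _).trans ?_
          have k : |CA| * (D * (η + ν)) ≤ |CA| * (2 * D * δ) := by
            refine mul_le_mul_of_nonneg_left ?_ (abs_nonneg _); nlinarith
          exact (add_le_add (this.trans (k.trans δ3)) h2).trans_eq (two_mul ρ).symm
        · exact (congrArg ψ (sh_inv ..)).trans (S.psi.2.2 _ (gd u ⟨h1.1.le, le_rfl⟩)))
    exact bad (e ▸ (S.psi.2.1 _ (r y hy)).1)
  have one : (1 : ℝ) ∈ Icc (0 : ℝ) 1 := ⟨zero_le_one, le_rfl⟩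
  exact ⟨all 1 one, (jb_from (sa 1 one (all 1 one)) (A 1 one all)).mono le_rfl (by nlinarith)⟩

theorem Ch.it {R : R4 → R4 → Prop} {P : R4 → ℝ → Prop} {C δ η ν : ℝ} (C1 : 1 ≤ C) (η0 : 0 ≤ η)
    (ν0 : 0 ≤ ν) (mo : ∀ x e e', e ≤ e' → P x e → P x e')
    (H : ∀ x y ν, ν ≤ δ → R x y → P x ν → P y (C * (η + ν))) {x : R4} (h : P x ν) :
    ∀ {k y}, (2 * C) ^ k * (η + ν) ≤ δ → Ch R k x y → P y ((2 * C) ^ k * (η + ν))
  | 0, _, _, e => e ▸ mo _ _ _ (by rw [pow_zero]; linarith) h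
  | k + 1, y, b, e => by
    have k1 : 1 ≤ (2 * C) ^ k := one_le_pow₀ (by linarith)
    have k2 : η ≤ (2 * C) ^ k * (η + ν) := by nlinarith
    have k3 : (2 * C) ^ k * (η + ν) ≤ (2 * C) ^ (k + 1) * (η + ν) := by
      rw [pow_succ', mul_assoc (2 * C)]; nlinarith
    rcases e with e | ⟨z, e, r⟩
    · exact mo _ _ _ k3 (Ch.it C1 η0 ν0 mo H h (k3.trans b) e)
    · refine mo _ _ _ ?_ (H _ _ _ (k3.trans b) r (Ch.it C1 η0 ν0 mo H h (k3.trans b) e))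
      rw [pow_succ', mul_assoc (2 * C)]; nlinarith

theorem chain (arg : ARG) {M r1 r0 s L : ℝ} (a : ℝ) {N : ℕ} (m : ℕ) (h1 : 0 < r1) (h0 : r1 < r0)
    (hM : 0 < M) (hs : 0 ≤ s) (hN : 1 ≤ N) (hL : 0 ≤ L) : ∃ C ≥ 1, ∃ δ > 0,
    ∀ c L' t ε p1 p2 K DE D' β ψ ι G, Sp M a r1 r0 s c L' t ε N p1 p2 K DE D' β ψ ι G → 0 ≤ ε →
      ε ≤ 1 → ∀ T c' φ η, t ≤ T → 2 * (|c'| + 1) ≤ T → ε * (1 + T / 2) ^ (-s) ≤ η →
      ‖p2 - p1‖ ≤ η → η ≤ δ → ∀ x y ν, ν ≤ δ → Ch (Lk (K ∩ Nz M r0 T) L) m x y →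
        y ∈ K ∩ Nz M r0 T → St DE β ι 1 c' φ x ν → St DE β ι (N + 1) c' φ y (C * (η + ν)) := by
  obtain ⟨C, C1, δ, δ0, H⟩ := step arg a L h1 h0 hM hs hN
  have k1 : 1 ≤ (2 * C) ^ m := one_le_pow₀ (by linarith)
  refine ⟨2 * C * (2 * C) ^ m, by nlinarith, δ / (2 * (2 * C) ^ m), by positivity,
    fun c L' t ε p1 p2 K DE D' β ψ ι G S e0 e1 T c' φ η tT hc hη hp ηδ x y ν νδ l hy st => ?_⟩
  have η0 : 0 ≤ η := (norm_nonneg _).trans hp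
  have ν0 := st.2.nonneg
  rw [le_div_iff₀ (by positivity)] at ηδ νδ
  have H' := H c L' t ε p1 p2 K DE D' β ψ ι G S e0 e1 T c' φ η tT hc hη hp (by nlinarith)
  have b : (2 * C) ^ m * (η + ν) ≤ δ := by nlinarith
  have := H' y y _ b ⟨fun _ => y, rfl, rfl, fun u _ => ⟨hy, differentiableAt_const _, by simpa⟩⟩
    (Ch.it (P := St DE β ι 1 c' φ) C1 η0 ν0 (fun x e e' k h => ⟨h.1, h.2.mono le_rfl k⟩)
      (fun x y ν k r h => ⟨(H' x y ν k r h).1, (H' x y ν k r h).2.mono (by omega) le_rfl⟩) st b l)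
  refine ⟨this.1, this.2.mono le_rfl ?_⟩
  have k2 : η ≤ (2 * C) ^ m * (η + ν) := by nlinarith
  rw [mul_assoc (2 * C)]; nlinarith

end Vale.Agent.P354LA
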